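import Vale.Agent.P132.M723.Dense

/-!
# P132: intertwiners and matrix units, definitions
-/

open scoped ComplexConjugate InnerProductSpace

namespace Vale.Agent.P132

universe u

variable {H : Type u} [NormedAddCommGroup H] [InnerProductSpace ℂ H] [CompleteSpace H]

/-- `‖v ψ - φ v‖ ≤ δ` -/
def Itw (M : VonNeumannAlgebra H) (φ ψ : (H →L[ℂ] H) → ℂ) (v : H →L[ℂ] H) (δ : ℝ) : Prop :=
  ∀ y ∈ M, ‖ψ (y * v) - φ (v * y)‖ ≤ δ * ‖y‖

/-- matrix units of a unital type I subfactor of `M` -/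
structure MU (M : VonNeumannAlgebra H) {ι : Type} [Fintype ι] [DecidableEq ι]
    (e : ι → ι → (H →L[ℂ] H)) : Prop where
  mem : ∀ i j, e i j ∈ M
  adj : ∀ i j, star (e i j) = e j i
  mul : ∀ i j k l, e i j * e k l = if j = k then e i l else 0
  sum : ∑ i, e i i = 1

/-- the conditional expectation onto the relative commutant of the matrix units -/
noncomputable def mavg {ι : Type} [Fintype ι] (e : ι → ι → (H →L[ℂ] H)) (x : H →L[ℂ] H) :
    H →L[ℂ] H :=
  ((Fintype.card ι : ℂ)⁻¹) • ∑ i, ∑ j, e i j * x * e j i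

end Vale.Agent.P132
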