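import Vale.Agent.P132.N723.Cuntz

/-!
# P132: composition of matrix units, the refinement step
-/

open Filter Topology
open scoped ComplexConjugate InnerProductSpace

namespace Vale.Agent.P132

universe u

variable {H : Type u} [NormedAddCommGroup H] [InnerProductSpace ℂ H] [CompleteSpace H]

section

variable {M : VonNeumannAlgebra H} {ι κ : Type} [Fintype ι] [DecidableEq ι] [Fintype κ]
  [DecidableEq κ] {a : ι → (H →L[ℂ] H)} {b : κ → (H →L[ℂ] H)}

theorem CF.comp (ha : CF M a) (hb : CF M b) : CF M fun p : ι × κ => a p.1 * b p.2 where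
  mem := fun p => mul_mem (ha.mem _) (hb.mem _)
  orth := fun p q => by
    rw [star_mul]
    have e : star (b p.2) * star (a p.1) * (a q.1 * b q.2) =
        star (b p.2) * (star (a p.1) * a q.1) * b q.2 := by simp only [mul_assoc]
    rw [e, ha.orth]
    by_cases h1 : p.1 = q.1
    · rw [if_pos h1, mul_one, hb.orth]
      by_cases h2 : p.2 = q.2
      · rw [if_pos h2, if_pos (Prod.ext h1 h2)]
      · rw [if_neg h2, if_neg fun h => h2 (congrArg Prod.snd h)]
    · rw [if_neg h1, mul_zero, zero_mul, if_neg fun h => h1 (congrArg Prod.fst h)]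
  sum := by
    rw [Fintype.sum_prod_type]
    have e : ∀ i, ∑ k, a i * b k * star (a i * b k) = a i * star (a i) := by
      intro i
      have e2 : ∀ k ∈ (Finset.univ : Finset κ), a i * b k * star (a i * b k) =
          a i * (b k * star (b k)) * star (a i) := by
        intro k _
        rw [star_mul]
        simp only [mul_assoc]
      rw [Finset.sum_congr rfl e2, ← Finset.sum_mul, ← Finset.mul_sum, hb.sum, mul_one]
    simp only [e]
    exact ha.sum

theorem CF.reindex (ha : CF M a) (σ : κ ≃ ι) : CF M fun k => a (σ k) where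
  mem := fun k => ha.mem _
  orth := fun k l => by
    rw [ha.orth]
    by_cases h : k = l
    · rw [if_pos h, if_pos (by rw [h])]
    · rw [if_neg h, if_neg fun h' => h (σ.injective h')]
  sum := by
    rw [Equiv.sum_comp σ fun i => a i * star (a i)]
    exact ha.sum

omit [CompleteSpace H] [DecidableEq ι] [DecidableEq κ] in
theorem card_eq_of_equiv (σ : κ ≃ ι) : Fintype.card κ = Fintype.card ι := Fintype.card_congr σ

omit [DecidableEq ι] [DecidableEq κ] in
theorem mavg_reindex (a : ι → (H →L[ℂ] H)) (σ : κ ≃ ι) (y : H →L[ℂ] H) :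
    mavg (cmu fun k => a (σ k)) y = mavg (cmu a) y := by
  rw [mavg, mavg, Fintype.card_congr σ]
  congr 1
  rw [← Equiv.sum_comp σ fun i => ∑ j, cmu a i j * y * cmu a j i]
  refine Finset.sum_congr rfl fun k _ => ?_
  rw [← Equiv.sum_comp σ fun j => cmu a (σ k) j * y * cmu a j (σ k)]
  rfl

omit [DecidableEq ι] [DecidableEq κ] in
theorem mavg_comp (a : ι → (H →L[ℂ] H)) (b : κ → (H →L[ℂ] H)) (y : H →L[ℂ] H) :
    mavg (cmu fun p : ι × κ => a p.1 * b p.2) y = th a (mavg (cmu b) (cex a y)) := by
  rw [mavg_eq_th, mavg_eq_th]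
  have e1 : ∀ z, th (fun p : ι × κ => a p.1 * b p.2) z = th a (th b z) := by
    intro z
    rw [th, th, Fintype.sum_prod_type]
    refine Finset.sum_congr rfl fun i _ => ?_
    rw [th, Finset.mul_sum, Finset.sum_mul]
    refine Finset.sum_congr rfl fun k _ => ?_
    rw [star_mul]
    simp only [mul_assoc]
  have e2 : cex (fun p : ι × κ => a p.1 * b p.2) y = cex b (cex a y) := by
    rw [cex, cex, cex, Fintype.sum_prod_type, Finset.sum_comm, Fintype.card_prod]
    have e3 : ∀ k ∈ (Finset.univ : Finset κ),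
        ∑ i, star (a i * b k) * y * (a i * b k) = star (b k) * (∑ i, star (a i) * y * a i) * b k := by
      intro k _
      rw [Finset.mul_sum, Finset.sum_mul]
      refine Finset.sum_congr rfl fun i _ => ?_
      rw [star_mul]
      simp only [mul_assoc]
    rw [Finset.sum_congr rfl e3]
    have e4 : ∀ k ∈ (Finset.univ : Finset κ),
        star (b k) * (((Fintype.card ι : ℂ)⁻¹) • ∑ i, star (a i) * y * a i) * b k =
          ((Fintype.card ι : ℂ)⁻¹) • (star (b k) * (∑ i, star (a i) * y * a i) * b k) := by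
      intro k _
      rw [mul_smul_comm, smul_mul_assoc]
    rw [Finset.sum_congr rfl e4, ← Finset.smul_sum, smul_smul]
    congr 1
    push_cast
    rw [mul_inv, mul_comm]
  rw [e1, e2]

/-- the state `φ ∘ θ` -/
theorem th_state (ha : CF M a) {φ : (H →L[ℂ] H) → ℂ} (hφ : IsNormalState M φ) :
    IsNormalState M fun y => φ (th a y) := by
  have h1 : ∀ s ∈ M, NPF M (fun y => φ (s * y * star s)) (‖s‖ ^ 2) := by
    intro s hs
    obtain ⟨η, h2, h3⟩ := hφ
    have hle : ∀ i, ‖star s (η i)‖ ^ 2 ≤ ‖s‖ ^ 2 * ‖η i‖ ^ 2 := by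
      intro i
      rw [← mul_pow]
      refine pow_le_pow_left₀ (norm_nonneg _) ?_ 2
      have := (star s).le_opNorm (η i)
      rwa [norm_star] at this
    have hsm : Summable fun i => ‖star s (η i)‖ ^ 2 :=
      Summable.of_nonneg_of_le (fun i => by positivity) hle (h2.summable.mul_left _)
    refine ⟨fun i => star s (η i), ∑' i, ‖star s (η i)‖ ^ 2, hsm.hasSum, ?_, fun x hx => ?_⟩
    · have h4 := hsm.tsum_le_tsum hle (h2.summable.mul_left _)
      rw [tsum_mul_left, h2.tsum_eq, mul_one] at h4
      exact h4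
    · have h4 := h3 _ (mul_mem (mul_mem hs hx) (star_mem hs))
      have e : (fun i => ⟪star s (η i), x (star s (η i))⟫_ℂ) =
          fun i => ⟪η i, (s * x * star s) (η i)⟫_ℂ := by
        funext i
        rw [BC.inner_star]
        rfl
      rw [e]
      exact h4
  obtain ⟨θ, h2, h3⟩ := NPF.sum (Finset.univ : Finset ι) fun i _ => h1 (a i) (ha.mem i)
  have h4 : ∀ y ∈ M, θ y = φ (th a y) := by
    intro y hy
    rw [h3 y hy, th, state_sum hφ _ fun i _ =>
      mul_mem (mul_mem (ha.mem i) hy) (star_mem (ha.mem i))]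
  have h5 : IsNormalState M θ := h2.normal (by
    rw [h4 1 (one_mem M), th_one ha, state_one hφ])
  obtain ⟨η, h6, h7⟩ := h5
  exact ⟨η, h6, fun y hy => by
    have := h7 y hy
    rw [h4 y hy] at this
    exact this⟩

theorem th_inj [Nonempty ι] (ha : CF M a) {y : H →L[ℂ] H} (h : th a y = 0) : y = 0 := by
  obtain ⟨i⟩ := ‹Nonempty ι›
  have h1 : star (a i) * th a y * a i = y := by
    rw [th, Finset.mul_sum, Finset.sum_mul, Finset.sum_eq_single i]
    · have e : star (a i) * (a i * y * star (a i)) * a i =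
          (star (a i) * a i) * y * (star (a i) * a i) := by simp only [mul_assoc]
      rw [e, ha.orth, if_pos rfl, one_mul, mul_one]
    · intro j _ hj
      have e : star (a i) * (a j * y * star (a j)) * a i =
          (star (a i) * a j) * y * (star (a j) * a i) := by simp only [mul_assoc]
      rw [e, ha.orth, if_neg (Ne.symm hj), zero_mul, zero_mul]
    · intro h'; exact absurd (Finset.mem_univ i) h'
  rw [← h1, h, mul_zero, zero_mul]

theorem th_faithful [Nonempty ι] (ha : CF M a) {φ : (H →L[ℂ] H) → ℂ} (hf : IsFaithful M φ) :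
    IsFaithful M fun y => φ (th a y) := by
  intro y hy h0
  apply th_inj ha
  apply hf _ (th_mem ha hy)
  rw [← th_star, ← th_mul ha]
  exact h0

end

end Vale.Agent.P132
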