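import Vale.Agent.P132.N723.Basic
import Vale.Agent.P132.H8.Nf

/-!
# P132: families of isometries and their matrix units
-/

open Filter Topology
open scoped ComplexConjugate InnerProductSpace

namespace Vale.Agent.P132

universe u

variable {H : Type u} [NormedAddCommGroup H] [InnerProductSpace ℂ H] [CompleteSpace H]

/-- isometries with orthogonal ranges and sum of range projections `1` -/
structure CF (M : VonNeumannAlgebra H) {ι : Type} [Fintype ι] [DecidableEq ι]
    (a : ι → (H →L[ℂ] H)) : Prop where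
  mem : ∀ i, a i ∈ M
  orth : ∀ i j, star (a i) * a j = if i = j then 1 else 0
  sum : ∑ i, a i * star (a i) = 1

/-- the matrix units -/
noncomputable def cmu {ι : Type} (a : ι → (H →L[ℂ] H)) (i j : ι) : H →L[ℂ] H := a i * star (a j)

/-- the embedding `y ↦ ∑ a_i y a_i*` -/
noncomputable def th {ι : Type} [Fintype ι] (a : ι → (H →L[ℂ] H)) (y : H →L[ℂ] H) : H →L[ℂ] H :=
  ∑ i, a i * y * star (a i)

/-- the compression `y ↦ (1/n) ∑ a_i* y a_i` -/
noncomputable def cex {ι : Type} [Fintype ι] (a : ι → (H →L[ℂ] H)) (y : H →L[ℂ] H) : H →L[ℂ] H :=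
  ((Fintype.card ι : ℂ)⁻¹) • ∑ i, star (a i) * y * a i

section

variable {M : VonNeumannAlgebra H} {ι : Type} [Fintype ι] [DecidableEq ι]
  {a : ι → (H →L[ℂ] H)}

theorem CF.mu (h : CF M a) : MU M (cmu a) where
  mem := fun i j => mul_mem (h.mem i) (star_mem (h.mem j))
  adj := fun i j => by rw [cmu, cmu, star_mul, star_star]
  mul := fun i j k l => by
    rw [cmu, cmu, cmu]
    have e : a i * star (a j) * (a k * star (a l)) = a i * (star (a j) * a k) * star (a l) := by
      simp only [mul_assoc]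
    rw [e, h.orth]
    by_cases hjk : j = k
    · simp [hjk]
    · simp [hjk]
  sum := h.sum

theorem MU.exists_cf [Nonempty ι] (hM : IsTypeIIIOneFactor M) {φ : (H →L[ℂ] H) → ℂ}
    (hφ : IsNormalState M φ) (hf : IsFaithful M φ) {e : ι → ι → (H →L[ℂ] H)} (h : MU M e) :
    ∃ a : ι → (H →L[ℂ] H), CF M a ∧ ∀ i j, e i j = cmu a i j := by
  obtain ⟨i0⟩ := ‹Nonempty ι›
  have hne : e i0 i0 ≠ 0 := by
    intro h0
    have h1 : ∀ i, e i i = 0 := by
      intro i
      have h2 : e i i = e i i0 * e i0 i0 * e i0 i := by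
        rw [h.mul, if_pos rfl, h.mul, if_pos rfl]
      rw [h2, h0, mul_zero, zero_mul]
    have h2 : (1 : H →L[ℂ] H) = 0 := by
      rw [← h.sum]
      exact Finset.sum_eq_zero fun i _ => h1 i
    have h3 := state_one hφ
    rw [h2, state_zero hφ] at h3
    exact zero_ne_one h3
  obtain ⟨w, hwM, hw1, hw2⟩ := H8.all_equiv hM hφ hf (h.mem i0 i0) (h.adj i0 i0)
    (by rw [h.mul, if_pos rfl]) hne
  refine ⟨fun i => e i i0 * w, ⟨fun i => mul_mem (h.mem i i0) hwM, fun i j => ?_, ?_⟩,
    fun i j => ?_⟩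
  · rw [star_mul, h.adj]
    have e1 : star w * e i0 i * (e j i0 * w) = star w * (e i0 i * e j i0) * w := by
      simp only [mul_assoc]
    rw [e1, h.mul]
    by_cases hij : i = j
    · rw [if_pos hij, if_pos hij, ← hw2, ← mul_assoc, hw1, one_mul, hw1]
    · rw [if_neg hij, if_neg hij, mul_zero, zero_mul]
  · have e1 : ∀ i, e i i0 * w * star (e i i0 * w) = e i i := by
      intro i
      rw [star_mul, h.adj]
      have e2 : e i i0 * w * (star w * e i0 i) = e i i0 * (w * star w) * e i0 i := by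
        simp only [mul_assoc]
      rw [e2, hw2, h.mul, if_pos rfl, h.mul, if_pos rfl]
    simp only [e1]
    exact h.sum
  · rw [cmu, star_mul, h.adj]
    have e2 : e i i0 * w * (star w * e i0 j) = e i i0 * (w * star w) * e i0 j := by
      simp only [mul_assoc]
    rw [e2, hw2, h.mul, if_pos rfl, h.mul, if_pos rfl]

theorem th_mem (h : CF M a) {y : H →L[ℂ] H} (hy : y ∈ M) : th a y ∈ M :=
  sum_mem fun i _ => mul_mem (mul_mem (h.mem i) hy) (star_mem (h.mem i))

theorem cex_mem (h : CF M a) {y : H →L[ℂ] H} (hy : y ∈ M) : cex a y ∈ M :=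
  M.toStarSubalgebra.smul_mem
    (sum_mem fun i _ => mul_mem (mul_mem (star_mem (h.mem i)) hy) (h.mem i)) _

theorem th_one (h : CF M a) : th a 1 = 1 := by
  rw [th]
  simp only [mul_one]
  exact h.sum

theorem th_mul (h : CF M a) (x y : H →L[ℂ] H) : th a (x * y) = th a x * th a y := by
  rw [th, th, th, Finset.sum_mul]
  refine Finset.sum_congr rfl fun i _ => ?_
  rw [Finset.mul_sum, Finset.sum_eq_single i]
  · have e : a i * x * star (a i) * (a i * y * star (a i)) =
        a i * x * (star (a i) * a i) * y * star (a i) := by simp only [mul_assoc]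
    rw [e, h.orth, if_pos rfl, mul_one, ← mul_assoc (a i) x y]
  · intro j _ hj
    have e : a i * x * star (a i) * (a j * y * star (a j)) =
        a i * x * (star (a i) * a j) * y * star (a j) := by simp only [mul_assoc]
    rw [e, h.orth, if_neg (Ne.symm hj), mul_zero, zero_mul, zero_mul]
  · intro h'; exact absurd (Finset.mem_univ i) h'

omit [DecidableEq ι] in
theorem th_star (y : H →L[ℂ] H) : th a (star y) = star (th a y) := by
  rw [th, th, star_sum]
  refine Finset.sum_congr rfl fun i _ => ?_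
  rw [star_mul, star_mul, star_star, mul_assoc]

omit [DecidableEq ι] in
theorem th_sub (x y : H →L[ℂ] H) : th a (x - y) = th a x - th a y := by
  rw [th, th, th, ← Finset.sum_sub_distrib]
  exact Finset.sum_congr rfl fun i _ => by rw [mul_sub, sub_mul]

omit [DecidableEq ι] in
theorem th_smul (c : ℂ) (x : H →L[ℂ] H) : th a (c • x) = c • th a x := by
  rw [th, th, Finset.smul_sum]
  exact Finset.sum_congr rfl fun i _ => by rw [mul_smul_comm, smul_mul_assoc]

/-- `θ(y)` commutes with the matrix units -/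
theorem th_comm (h : CF M a) (y : H →L[ℂ] H) (i j : ι) :
    cmu a i j * th a y = th a y * cmu a i j := by
  rw [cmu, th, Finset.mul_sum, Finset.sum_mul, Finset.sum_eq_single j, Finset.sum_eq_single i]
  · have e1 : a i * star (a j) * (a j * y * star (a j)) =
        a i * (star (a j) * a j) * y * star (a j) := by simp only [mul_assoc]
    have e2 : a i * y * star (a i) * (a i * star (a j)) =
        a i * y * (star (a i) * a i) * star (a j) := by simp only [mul_assoc]
    rw [e1, e2, h.orth, if_pos rfl, h.orth, if_pos rfl, mul_one, mul_one]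
  · intro k _ hk
    have e2 : a k * y * star (a k) * (a i * star (a j)) =
        a k * y * (star (a k) * a i) * star (a j) := by simp only [mul_assoc]
    rw [e2, h.orth, if_neg hk, mul_zero, zero_mul]
  · intro h'; exact absurd (Finset.mem_univ i) h'
  · intro k _ hk
    have e1 : a i * star (a j) * (a k * y * star (a k)) =
        a i * (star (a j) * a k) * y * star (a k) := by simp only [mul_assoc]
    rw [e1, h.orth, if_neg (Ne.symm hk), mul_zero, zero_mul, zero_mul]
  · intro h'; exact absurd (Finset.mem_univ j) h'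

omit [DecidableEq ι] in
theorem mavg_eq_th (y : H →L[ℂ] H) : mavg (cmu a) y = th a (cex a y) := by
  rw [mavg, th, Finset.smul_sum]
  refine Finset.sum_congr rfl fun i _ => ?_
  rw [cex, mul_smul_comm, smul_mul_assoc, Finset.mul_sum, Finset.sum_mul]
  congr 1

omit [DecidableEq ι] in
theorem cf_card_ne [Nonempty ι] : (Fintype.card ι : ℂ) ≠ 0 := by
  exact_mod_cast Fintype.card_ne_zero

/-- the expectation fixes the elements commuting with the matrix units -/
theorem mavg_fix [Nonempty ι] {e : ι → ι → (H →L[ℂ] H)} (h : MU M e) {y : H →L[ℂ] H}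
    (hy : ∀ i j, e i j * y = y * e i j) : mavg e y = y := by
  rw [mavg]
  have h1 : ∀ i, ∑ j, e i j * y * e j i = (Fintype.card ι : ℂ) • (y * e i i) := by
    intro i
    have h2 : ∀ j ∈ (Finset.univ : Finset ι), e i j * y * e j i = y * e i i := by
      intro j _
      rw [hy, mul_assoc, h.mul, if_pos rfl]
    rw [Finset.sum_congr rfl h2, Finset.sum_const, Finset.card_univ]
    norm_cast
  simp only [h1]
  rw [← Finset.smul_sum, ← Finset.mul_sum, h.sum, mul_one, smul_smul,
    inv_mul_cancel₀ cf_card_ne, one_smul]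

/-- the values of the expectation commute with the matrix units -/
theorem mavg_comm (h : CF M a) (y : H →L[ℂ] H) (i j : ι) :
    cmu a i j * mavg (cmu a) y = mavg (cmu a) y * cmu a i j := by
  rw [mavg_eq_th, th_comm h]

theorem mavg_mem {e : ι → ι → (H →L[ℂ] H)} (h : MU M e) {y : H →L[ℂ] H} (hy : y ∈ M) :
    mavg e y ∈ M :=
  M.toStarSubalgebra.smul_mem (sum_mem fun i _ => sum_mem fun j _ =>
    mul_mem (mul_mem (h.mem i j) hy) (h.mem j i)) _

theorem cex_norm_le (h : CF M a) (y : H →L[ℂ] H) : ‖cex a y‖ ≤ ‖y‖ := by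
  have h1 : ∀ i, ‖star (a i) * y * a i‖ ≤ ‖y‖ := by
    intro i
    have h2 : ‖a i‖ ≤ 1 := H8.isometry_norm_le (by rw [h.orth, if_pos rfl])
    calc ‖star (a i) * y * a i‖ ≤ ‖star (a i) * y‖ * ‖a i‖ := norm_mul_le _ _
      _ ≤ (‖star (a i)‖ * ‖y‖) * ‖a i‖ :=
          mul_le_mul_of_nonneg_right (norm_mul_le _ _) (norm_nonneg _)
      _ ≤ (1 * ‖y‖) * 1 := by
          rw [norm_star]
          gcongr
      _ = ‖y‖ := by ring
  rw [cex, norm_smul, norm_inv]
  have h2 : ‖(Fintype.card ι : ℂ)‖ = Fintype.card ι := by simp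
  rw [h2]
  rcases Nat.eq_zero_or_pos (Fintype.card ι) with h0 | h0
  · rw [h0]; simp
  · have h3 : (0 : ℝ) < Fintype.card ι := by exact_mod_cast h0
    rw [inv_mul_le_iff₀ h3]
    refine (norm_sum_le _ _).trans ((Finset.sum_le_sum fun i _ => h1 i).trans ?_)
    rw [Finset.sum_const, Finset.card_univ, nsmul_eq_mul]

theorem th_norm_le (h : CF M a) (y : H →L[ℂ] H) : ‖th a y‖ ≤ ‖y‖ := by
  refine ContinuousLinearMap.opNorm_le_bound _ (norm_nonneg _) fun ζ => ?_
  have h0 : ∀ i, ‖a i‖ ≤ 1 := fun i => H8.isometry_norm_le (by rw [h.orth, if_pos rfl])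
  have hiso : ∀ i (v : H), ‖a i v‖ = ‖v‖ := fun i v =>
    H8.isometry_norm_apply (by rw [h.orth, if_pos rfl]) v
  have hort : ∀ i j, i ≠ j → ∀ v w : H, ⟪a i v, a j w⟫_ℂ = 0 := by
    intro i j hij v w
    rw [← BC.inner_star' (a i)]
    have : star (a i) (a j w) = (star (a i) * a j) w := rfl
    rw [this, h.orth, if_neg hij]
    simp
  have h1 : ‖th a y ζ‖ ^ 2 = ∑ i, ‖y (star (a i) ζ)‖ ^ 2 := by
    have e : th a y ζ = ∑ i, a i (y (star (a i) ζ)) := by
      rw [th, sum_apply]
      rfl
    rw [e, norm_sum_sq Finset.univ _ fun i _ j _ hij => hort i j hij _ _]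
    exact Finset.sum_congr rfl fun i _ => by rw [hiso]
  have h2 : ‖ζ‖ ^ 2 = ∑ i, ‖star (a i) ζ‖ ^ 2 := by
    have e : ζ = ∑ i, a i (star (a i) ζ) := by
      have h3 := congrArg (fun T : H →L[ℂ] H => T ζ) h.sum
      simp only [sum_apply] at h3
      exact h3.symm
    conv_lhs => rw [e]
    rw [norm_sum_sq Finset.univ _ fun i _ j _ hij => hort i j hij _ _]
    exact Finset.sum_congr rfl fun i _ => by rw [hiso]
  have h3 : ‖th a y ζ‖ ^ 2 ≤ (‖y‖ * ‖ζ‖) ^ 2 := by
    rw [h1, mul_pow, h2, Finset.mul_sum]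
    refine Finset.sum_le_sum fun i _ => ?_
    rw [← mul_pow]
    exact pow_le_pow_left₀ (norm_nonneg _) (y.le_opNorm _) 2
  exact (pow_le_pow_iff_left₀ (norm_nonneg _) (by positivity) two_ne_zero).1 h3

theorem mavg_norm_le (h : CF M a) (y : H →L[ℂ] H) : ‖mavg (cmu a) y‖ ≤ ‖y‖ := by
  rw [mavg_eq_th]
  exact (th_norm_le h _).trans (cex_norm_le h y)

end

end Vale.Agent.P132
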