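import Vale.Agent.P132.N723.Polar

/-!
# P132: partial isometries almost intertwining two states
-/

open Filter Topology
open scoped ComplexConjugate InnerProductSpace BoundedContinuousFunction

namespace Vale.Agent.P132

universe u

variable {H : Type u} [NormedAddCommGroup H] [InnerProductSpace ℂ H] [CompleteSpace H]

namespace ModData

variable {M : VonNeumannAlgebra H} {ξ : H} (D : ModData M ξ)

theorem exists_offdiag (hcore : ∀ x, D.InN x → ∃ c : ℂ, x = c • 1) {P : H →L[ℂ] H}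
    (hP : Cmp.IsPr M P) (hPc : D.cm P ξ = 0) (hmass : ‖P ξ‖ ^ 2 = 1 / 2) {τ : ℝ} (hτ : 0 < τ) :
    ∃ v ∈ M, P * v = v ∧ v * P = 0 ∧ Cmp.IsPr M (star v * v) ∧ ‖D.cm v ξ‖ ≤ τ ∧
      1 / 120 ≤ ‖v ξ‖ ^ 2 := by
  set Q : H →L[ℂ] H := 1 - P with hQ
  have hQpr : Cmp.IsPr M Q := ⟨sub_mem (one_mem M) hP.mem, by rw [hQ, star_sub, star_one, hP.sa],
    by rw [hQ, mul_sub, mul_one, sub_mul, one_mul, hP.idem, sub_self, sub_zero]⟩
  have hQc : D.cm Q ξ = 0 := by rw [hQ, D.cm_sub, D.cm_one_xi, hPc, sub_zero]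
  have hPQ : P * Q = 0 := by rw [hQ, mul_sub, mul_one, hP.idem, sub_self]
  have hQP : Q * P = 0 := by rw [hQ, sub_mul, one_mul, hP.idem, sub_self]
  have hPQ1 : P + Q = 1 := by rw [hQ]; abel
  obtain ⟨σ, hσ, hpol⟩ := D.exists_polar (κ := 1 / 800) (by norm_num) (by norm_num) hτ
  obtain ⟨δ₁, hδ₁, hcut⟩ := D.exists_one_cut hQpr hQc (s := 1 / 400) (μ := 1 / 800) (η := σ)
    (by norm_num) (by norm_num) hσ
  set δ₀ : ℝ := min (min (δ₁ / 2) σ) (1 / 1000) with hδ₀
  have hδ₀0 : 0 < δ₀ := lt_min (lt_min (by positivity) hσ) (by norm_num)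
  have hδa : δ₀ ≤ δ₁ / 2 := (min_le_left _ _).trans (min_le_left _ _)
  have hδb : δ₀ ≤ σ := (min_le_left _ _).trans (min_le_right _ _)
  have hδc : δ₀ ≤ 1 / 1000 := min_le_right _ _
  obtain ⟨t, htM, ht0, ht1, htc, ht⟩ := D.exists_comm_pos hcore (x := fun _ : Fin 1 => P)
    (fun _ => hP.mem) hδ₀0 (ε := 1 / 1000) (by norm_num)
  have hts : star t = t := pE_star_of_nonneg ht0
  have htv : tvar ξ (fun _ : Fin 1 => P) = 1 / 4 := by
    rw [tvar, Finset.univ_unique, Finset.sum_singleton]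
    have h1 : ⟪ξ, P ξ⟫_ℂ = ((‖P ξ‖ ^ 2 : ℝ) : ℂ) := by
      have h2 := Cmp.inner_star_mul_self P ξ
      rw [hP.sa, hP.idem] at h2
      rw [h2]; push_cast; rfl
    rw [h1, Complex.norm_real, Real.norm_of_nonneg (by positivity), hmass]
    norm_num
  rw [htv, Finset.univ_unique, Finset.sum_singleton] at ht
  set w : H →L[ℂ] H := P * t * Q with hw
  have hwM : w ∈ M := mul_mem (mul_mem hP.mem htM) hQpr.mem
  have hPn : ∀ v : H, ‖P v‖ ≤ ‖v‖ := fun v => Gf.norm_pr_le hP.sa hP.idem v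
  have hQn : ∀ v : H, ‖Q v‖ ≤ ‖v‖ := fun v => Gf.norm_pr_le hQpr.sa hQpr.idem v
  have hP1 : ‖P‖ ≤ 1 := ContinuousLinearMap.opNorm_le_bound _ zero_le_one fun v => by
    rw [one_mul]; exact hPn v
  have hQ1 : ‖Q‖ ≤ 1 := ContinuousLinearMap.opNorm_le_bound _ zero_le_one fun v => by
    rw [one_mul]; exact hQn v
  have hw1 : ‖w‖ ≤ 1 := by
    calc ‖P * t * Q‖ ≤ ‖P * t‖ * ‖Q‖ := norm_mul_le _ _
      _ ≤ (‖P‖ * ‖t‖) * ‖Q‖ := mul_le_mul_of_nonneg_right (norm_mul_le _ _) (norm_nonneg _)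
      _ ≤ (1 * 1) * 1 := by gcongr
      _ = 1 := by norm_num
  have hcw : ‖D.cm w ξ‖ ≤ δ₀ := by
    rw [hw, D.cm_mul' (mul_mem hP.mem htM) hQpr.mem, hQc, map_zero, zero_add,
      D.cm_mul' hP.mem htM, hPc, map_zero, add_zero]
    calc ‖D.Rm Q (P (D.cm t ξ))‖ ≤ ‖D.Rm Q‖ * ‖P (D.cm t ξ)‖ := (D.Rm Q).le_opNorm _
      _ ≤ 1 * ‖D.cm t ξ‖ := mul_le_mul ((D.norm_Rm_le Q).trans hQ1) (hPn _) (norm_nonneg _)
          zero_le_one
      _ ≤ δ₀ := by rw [one_mul]; exact htc
  have hws : star w = Q * t * P := by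
    rw [hw, star_mul, star_mul, hQpr.sa, hts, hP.sa, mul_assoc]
  -- the mass of `w`
  have hmassw : 1 / 80 ≤ ‖w ξ‖ ^ 2 := by
    have h1 : D.cm t (P ξ) = (t * P - P * t) ξ + P (D.cm t ξ) := by
      have h2 : D.Rm t (P ξ) = P (D.Rm t ξ) := (D.comm_Rm hP.mem htM ξ).symm
      rw [cm, cm, h2, map_sub]
      show t (P ξ) - P (D.Rm t ξ) = (t (P ξ) - P (t ξ)) + (P (t ξ) - P (D.Rm t ξ))
      abel
    have h3 : t * P - P * t = star w - w := by
      rw [hws, hw]
      have e1 : t * P = P * t * P + Q * t * P := by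
        calc t * P = (P + Q) * (t * P) := by rw [hPQ1, one_mul]
          _ = _ := by rw [add_mul, mul_assoc, mul_assoc]
      have e2 : P * t = P * t * P + P * t * Q := by
        calc P * t = (P * t) * (P + Q) := by rw [hPQ1, mul_one]
          _ = _ := by rw [mul_add]
      have e3 : t * P - P * t = (P * t * P + Q * t * P) - (P * t * P + P * t * Q) :=
        congrArg₂ (fun a b => a - b) e1 e2
      rw [e3]
      abel
    have h4 : ‖(t * P - P * t) ξ‖ ^ 2 = ‖star w ξ‖ ^ 2 + ‖w ξ‖ ^ 2 := by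
      rw [h3]
      have h5 : ⟪star w ξ, w ξ⟫_ℂ = 0 := by
        rw [BC.inner_star]
        have h6 : w * w = 0 := by
          rw [hw]
          calc P * t * Q * (P * t * Q) = P * t * (Q * P) * (t * Q) := by simp only [mul_assoc]
            _ = 0 := by rw [hQP, mul_zero, zero_mul]
        have h7 : w (w ξ) = 0 := congrArg (fun S : H →L[ℂ] H => S ξ) h6
        rw [h7, inner_zero_right]
      have h6 : (star w - w) ξ = star w ξ - w ξ := rfl
      rw [h6, @norm_sub_sq ℂ, h5]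
      simp
    have h5 : ‖star w ξ‖ ≤ ‖w ξ‖ + δ₀ := by
      rw [← D.norm_Rm_xi]
      have h6 : D.Rm w ξ = w ξ - D.cm w ξ := by rw [cm]; abel
      rw [h6]
      exact (norm_sub_le _ _).trans (add_le_add le_rfl hcw)
    have h6 : ‖D.cm t (P ξ)‖ ≤ ‖(t * P - P * t) ξ‖ + δ₀ := by
      rw [h1]
      exact (norm_add_le _ _).trans (add_le_add le_rfl ((hPn _).trans htc))
    by_contra hcon
    push Not at hcon
    have hW0 := norm_nonneg (w ξ)
    have hS0 := norm_nonneg (star w ξ)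
    have hB0 := norm_nonneg ((t * P - P * t) ξ)
    have hA0 := norm_nonneg (D.cm t (P ξ))
    have hW : ‖w ξ‖ < 112 / 1000 := by nlinarith
    have hS : ‖star w ξ‖ < 113 / 1000 := by linarith
    have hB : ‖(t * P - P * t) ξ‖ < 1 / 6 := by nlinarith
    have hA : ‖D.cm t (P ξ)‖ < 168 / 1000 := by linarith
    nlinarith
  set t2 : H →L[ℂ] H := star w * w with ht2
  have ht2M : t2 ∈ M := mul_mem (star_mem hwM) hwM
  have hws1 : ‖star w‖ ≤ 1 := by rwa [norm_star]
  have hQt2 : Q * t2 = t2 := by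
    have hQw : Q * star w = star w := by rw [hws, ← mul_assoc, ← mul_assoc, hQpr.idem]
    rw [ht2, ← mul_assoc, hQw]
  have ht2Q : t2 * Q = t2 := by
    rw [ht2, hw, mul_assoc, mul_assoc (P * t) Q Q, hQpr.idem]
  have ht20 : 0 ≤ t2 := star_mul_self_nonneg w
  have ht21 : ‖t2‖ ≤ 1 := by
    calc ‖star w * w‖ ≤ ‖star w‖ * ‖w‖ := norm_mul_le _ _
      _ ≤ 1 * 1 := mul_le_mul hws1 hw1 (norm_nonneg _) zero_le_one
      _ = 1 := one_mul _
  have ht2c : ‖D.cm t2 ξ‖ ≤ δ₁ := by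
    have h1 := D.cm_mul_le (star_mem hwM) hwM hws1 hw1
    rw [D.norm_cm_star_xi] at h1
    linarith
  obtain ⟨T, hT, hQT, hTQ, hcT, hlow, hup⟩ := hcut t2 ht2M hQt2 ht2Q ht20 ht21 ht2c
  have hinn : ∀ ζ, (⟪ζ, t2 ζ⟫_ℂ).re = ‖w ζ‖ ^ 2 := by
    intro ζ
    rw [ht2, Cmp.inner_star_mul_self]
    norm_cast
  obtain ⟨G, hG, hv, hcv⟩ := hpol w T hwM hT hw1 (fun ζ => by
    have h1 := hlow ζ
    rw [hinn] at h1
    linarith) (hcw.trans hδb) hcT
  set v : H →L[ℂ] H := w * T * G with hvdef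
  have hvM : v ∈ M := mul_mem (mul_mem hwM hT.mem) hG
  refine ⟨v, hvM, ?_, ?_, ?_, hcv, ?_⟩
  · rw [hvdef, hw, ← mul_assoc, ← mul_assoc, ← mul_assoc, ← mul_assoc, hP.idem]
  · have h1 : star (v * P) * (v * P) = 0 := by
      have h2 : T * P = 0 := by rw [← hTQ, mul_assoc, hQP, mul_zero]
      rw [star_mul, hP.sa, mul_assoc, ← mul_assoc (star v) v P, hv, h2, mul_zero]
    exact (CStarRing.star_mul_self_eq_zero_iff _).1 h1
  · rw [hv]; exact hT
  · have h1 : ‖v ξ‖ ^ 2 = ‖T ξ‖ ^ 2 := by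
      have h2 := Cmp.inner_star_mul_self v ξ
      have h3 := Cmp.inner_star_mul_self T ξ
      rw [hT.sa, hT.idem] at h3
      rw [hv, h3] at h2
      exact_mod_cast h2.symm
    rw [h1]
    rw [hinn] at hup
    linarith

end ModData

/-- **T1.** -/
theorem exists_piece {M : VonNeumannAlgebra H} (hM : IsTypeIIIOneFactor M)
    {φ ψ : (H →L[ℂ] H) → ℂ} (hφ : IsNormalState M φ) (hφf : IsFaithful M φ)
    (hψ : IsNormalState M ψ) (hψf : IsFaithful M ψ) {δ : ℝ} (hδ : 0 < δ) :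
    ∃ v ∈ M, v * star v * v = v ∧ 1 / 100 ≤ (φ (v * star v)).re ∧
      1 / 100 ≤ (ψ (star v * v)).re ∧ Itw M φ ψ v δ := by
  obtain ⟨V, hV1, hV⟩ := H8.exists_st hφ
  obtain ⟨W, hW1, hW⟩ := H8.exists_st hψ
  obtain ⟨v1, h1M, v2, h2M, h11, h22, hsum, h12, h21⟩ := H8.exists_isometries hM hφ hφf
  set χ : (H →L[ℂ] H) → ℂ := fun x =>
    ((1 / 2 : ℝ) : ℂ) * H8.st V (star v1 * x * v1) + ((1 / 2 : ℝ) : ℂ) * H8.st W (star v2 * x * v2)
    with hχdef
  have hχ : IsNormalState M χ :=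
    H8.isNormalState_mix hV1 hW1 h11 h22 (by norm_num) (by norm_num) (by norm_num)
  have hχx : ∀ x ∈ M, χ x = ((1 / 2 : ℝ) : ℂ) * φ (star v1 * x * v1) +
      ((1 / 2 : ℝ) : ℂ) * ψ (star v2 * x * v2) := by
    intro x hx
    rw [hV _ (mul_mem (mul_mem (star_mem h1M) hx) h1M),
      hW _ (mul_mem (mul_mem (star_mem h2M) hx) h2M)]
  have hχf : IsFaithful M χ := by
    intro x hx h0
    rw [hχx _ (mul_mem (star_mem hx) hx)] at h0
    have e1 : star v1 * (star x * x) * v1 = star (x * v1) * (x * v1) := by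
      rw [star_mul]; simp only [mul_assoc]
    have e2 : star v2 * (star x * x) * v2 = star (x * v2) * (x * v2) := by
      rw [star_mul]; simp only [mul_assoc]
    have hm1 := mul_mem hx h1M
    have hm2 := mul_mem hx h2M
    rw [e1, e2] at h0
    have h3 := congrArg Complex.re h0
    rw [Complex.add_re, Complex.re_ofReal_mul, Complex.re_ofReal_mul, Complex.zero_re] at h3
    have h4 := state_sq_nonneg hφ hm1
    have h5 := state_sq_nonneg hψ hm2
    have h6 : (φ (star (x * v1) * (x * v1))).re = 0 := by linarith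
    have h7 : (ψ (star (x * v2) * (x * v2))).re = 0 := by linarith
    have h8 : x * v1 = 0 := by
      apply hφf _ hm1
      rw [hV _ (mul_mem (star_mem hm1) hm1), H8.st_self] at h6 ⊢
      rw [Complex.ofReal_re] at h6
      rw [h6]; simp
    have h9 : x * v2 = 0 := by
      apply hψf _ hm2
      rw [hW _ (mul_mem (star_mem hm2) hm2), H8.st_self] at h7 ⊢
      rw [Complex.ofReal_re] at h7
      rw [h7]; simp
    calc x = x * (v1 * star v1 + v2 * star v2) := by rw [hsum, mul_one]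
      _ = (x * v1) * star v1 + (x * v2) * star v2 := by rw [mul_add, mul_assoc, mul_assoc]
      _ = 0 := by rw [h8, h9, zero_mul, zero_mul, add_zero]
  -- the standard representation of `χ`
  have hS : ∀ t : ℝ, 0 < t → t ∈ connesS M := fun t ht =>
    connesInvariant_subset (by rw [hM.connes]; exact ht.le)
  have hIII := isTypeIII_of_connesS hM.factor hS hχ hχf
  obtain ⟨K, _, _, _, ⟨R⟩⟩ := exists_stdRep M χ hχ hχf
  obtain ⟨D⟩ := exists_modData R.N R.ξ R.norm_xi R.cyc R.sep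
  have hcore : ∀ x, D.InN x → ∃ c : ℂ, x = c • 1 := D.core (R.factor hM.factor)
    (R.typeIII (isTypeIII_of_state hM.factor hχ hχf hIII)) (R.hspec_pos hS)
  set p : H →L[ℂ] H := v1 * star v1 with hp
  have hpM : p ∈ M := mul_mem h1M (star_mem h1M)
  have hps : star p = p := by rw [hp, star_mul, star_star]
  have hpp : p * p = p := by
    rw [hp, mul_assoc, ← mul_assoc (star v1) v1, h11, one_mul]
  have hpv1 : p * v1 = v1 := by rw [hp, mul_assoc, h11, mul_one]
  have hpv2 : p * v2 = 0 := by rw [hp, mul_assoc, h12, mul_zero]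
  have hv1p : star v1 * p = star v1 := by
    have := congrArg star hpv1
    rwa [star_mul, hps] at this
  have hv2p : star v2 * p = 0 := by
    have := congrArg star hpv2
    rwa [star_mul, hps, star_zero] at this
  have hcen : ∀ y ∈ M, χ (p * y) = χ (y * p) := by
    intro y hy
    rw [hχx _ (mul_mem hpM hy), hχx _ (mul_mem hy hpM)]
    have e1 : star v1 * (p * y) * v1 = star v1 * (y * p) * v1 := by
      rw [← mul_assoc, hv1p, ← mul_assoc (star v1) y p, mul_assoc _ p v1, hpv1]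
    have e2 : star v2 * (p * y) * v2 = star v2 * (y * p) * v2 := by
      rw [← mul_assoc, hv2p, ← mul_assoc (star v2) y p, mul_assoc _ p v2, hpv2, zero_mul, zero_mul,
        mul_zero]
    rw [e1, e2]
  have hPpr : Cmp.IsPr R.N (R.π p) := ⟨R.mem _ hpM, by rw [← R.map_star _ hpM, hps],
    by rw [← R.map_mul _ hpM _ hpM, hpp]⟩
  have hPc : D.cm (R.π p) R.ξ = 0 := by
    have h1 : D.InC (R.π p) := D.gi_centralizer hPpr.mem hPpr.sa (by
      intro x hx
      obtain ⟨y, hy, rfl⟩ := R.surj x hx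
      have e1 : R.π p (R.π y R.ξ) = R.π (p * y) R.ξ := by rw [R.map_mul _ hpM _ hy]; rfl
      have e2 : R.π y (R.π p R.ξ) = R.π (y * p) R.ξ := by rw [R.map_mul _ hy _ hpM]; rfl
      rw [e1, e2, R.state _ (mul_mem hpM hy), R.state _ (mul_mem hy hpM), hcen y hy])
    rw [ModData.cm, ModData.InC.Rm_xi D h1, sub_self]
  have hmassP : ‖R.π p R.ξ‖ ^ 2 = 1 / 2 := by
    have h1 := Cmp.inner_star_mul_self (R.π p) R.ξ
    rw [hPpr.sa, hPpr.idem, R.state _ hpM, hχx _ hpM, hv1p, h11, hv2p, zero_mul, state_one hφ,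
      state_zero hψ] at h1
    have h2 : ((‖R.π p R.ξ‖ ^ 2 : ℝ) : ℂ) = ((1 / 2 : ℝ) : ℂ) := by
      push_cast
      rw [← h1]
      push_cast
      ring
    exact_mod_cast h2
  set τ : ℝ := min (δ / 4) (1 / 1000) with hτ
  have hτ0 : 0 < τ := lt_min (by positivity) (by norm_num)
  have hτδ : τ ≤ δ / 4 := min_le_left _ _
  have hτ1 : τ ≤ 1 / 1000 := min_le_right _ _
  obtain ⟨v, hvN, hPv, hvP, hvpr, hcv, hmv⟩ := D.exists_offdiag hcore hPpr hPc hmassP hτ0
  obtain ⟨u0, hu0, rfl⟩ := R.surj v hvN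
  have hu0s := star_mem hu0
  -- transport to `M`
  have hpu : p * u0 = u0 := by
    apply R.injective (mul_mem hpM hu0) hu0
    rw [R.map_mul _ hpM _ hu0, hPv]
  have hup : u0 * p = 0 := by
    apply R.injective (mul_mem hu0 hpM) (zero_mem M)
    rw [R.map_mul _ hu0 _ hpM, hvP, R.map_zero']
  have huu : star u0 * u0 * (star u0 * u0) = star u0 * u0 := by
    have hm := mul_mem hu0s hu0
    apply R.injective (mul_mem hm hm) hm
    rw [R.map_mul _ hm _ hm, R.map_mul _ hu0s _ hu0, R.map_star _ hu0]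
    exact hvpr.idem
  have hu3 : u0 * star u0 * u0 = u0 := by
    have h1 : star (u0 * star u0 * u0 - u0) * (u0 * star u0 * u0 - u0) = 0 := by
      have e : star (u0 * star u0 * u0 - u0) * (u0 * star u0 * u0 - u0) =
          (star u0 * u0 * (star u0 * u0)) * (star u0 * u0) - star u0 * u0 * (star u0 * u0) -
            star u0 * u0 * (star u0 * u0) + star u0 * u0 := by
        simp only [star_sub, star_mul, star_star, sub_mul, mul_sub, mul_assoc]
        abel
      rw [e, huu, huu]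
      abel
    exact sub_eq_zero.1 ((CStarRing.star_mul_self_eq_zero_iff _).1 h1)
  have hqv2 : v2 * star v2 = 1 - p := by rw [hp, ← hsum]; abel
  have huq : u0 * (v2 * star v2) = u0 := by rw [hqv2, mul_sub, mul_one, hup, sub_zero]
  have hpu' : (v1 * star v1) * u0 = u0 := hpu
  have hu0v1 : u0 * v1 = 0 := by rw [← hpv1, ← mul_assoc, hup, zero_mul]
  have hv2u0 : star v2 * u0 = 0 := by rw [← hpu, ← mul_assoc, hv2p, zero_mul]
  have hu0sv2 : star u0 * v2 = 0 := by
    have := congrArg star hv2u0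
    rwa [star_mul, star_star, star_zero] at this
  refine ⟨star v1 * u0 * v2, mul_mem (mul_mem (star_mem h1M) hu0) h2M, ?_, ?_, ?_, ?_⟩
  · rw [star_mul, star_mul, star_star]
    calc star v1 * u0 * v2 * (star v2 * (star u0 * v1)) * (star v1 * u0 * v2)
        = star v1 * (u0 * (v2 * star v2)) * (star u0 * ((v1 * star v1) * u0)) * v2 := by
          simp only [mul_assoc]
      _ = star v1 * (u0 * star u0 * u0) * v2 := by rw [huq, hpu']; simp only [mul_assoc]
      _ = star v1 * u0 * v2 := by rw [hu3]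
  · -- the mass of the range
    have hm := mul_mem hu0 hu0s
    have e1 : star v1 * u0 * v2 * star (star v1 * u0 * v2) = star v1 * (u0 * star u0) * v1 := by
      rw [star_mul, star_mul, star_star]
      calc star v1 * u0 * v2 * (star v2 * (star u0 * v1))
          = star v1 * (u0 * (v2 * star v2)) * (star u0 * v1) := by simp only [mul_assoc]
        _ = star v1 * (u0 * star u0) * v1 := by rw [huq]; simp only [mul_assoc]
    have e2 : star v2 * (u0 * star u0) * v2 = 0 := by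
      rw [← mul_assoc, hv2u0, zero_mul, zero_mul]
    have h1 := hχx _ hm
    rw [e2, state_zero hψ, mul_zero, add_zero] at h1
    have h2 : χ (u0 * star u0) = ((‖star (R.π u0) R.ξ‖ ^ 2 : ℝ) : ℂ) := by
      rw [← R.state _ hm, R.map_mul _ hu0 _ hu0s, R.map_star _ hu0]
      have h3 := Cmp.inner_star_mul_self (star (R.π u0)) R.ξ
      rw [star_star] at h3
      rw [h3]; push_cast; rfl
    rw [h2] at h1
    have h3 := congrArg Complex.re h1
    rw [Complex.ofReal_re, Complex.re_ofReal_mul] at h3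
    have h4 : ‖R.π u0 R.ξ‖ ≤ ‖star (R.π u0) R.ξ‖ + τ := by
      rw [← D.norm_Rm_xi]
      have h5 : R.π u0 R.ξ = D.Rm (R.π u0) R.ξ + D.cm (R.π u0) R.ξ := by
        rw [ModData.cm]; abel
      conv_lhs => rw [h5]
      exact (norm_add_le _ _).trans (add_le_add le_rfl hcv)
    rw [e1]
    have h5 := norm_nonneg (star (R.π u0) R.ξ)
    have h6 := norm_nonneg (R.π u0 R.ξ)
    have h7 : 1 / 200 ≤ ‖star (R.π u0) R.ξ‖ ^ 2 := by
      by_contra hcon
      push Not at hcon
      have h8 : ‖star (R.π u0) R.ξ‖ < 71 / 1000 := by nlinarith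
      have h9 : ‖R.π u0 R.ξ‖ < 72 / 1000 := by linarith
      nlinarith
    linarith
  · -- the mass of the source
    have hm := mul_mem hu0s hu0
    have e1 : star (star v1 * u0 * v2) * (star v1 * u0 * v2) = star v2 * (star u0 * u0) * v2 := by
      rw [star_mul, star_mul, star_star]
      calc star v2 * (star u0 * v1) * (star v1 * u0 * v2)
          = star v2 * (star u0 * ((v1 * star v1) * u0)) * v2 := by simp only [mul_assoc]
        _ = star v2 * (star u0 * u0) * v2 := by rw [hpu']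
    have e2 : star v1 * (star u0 * u0) * v1 = 0 := by
      rw [mul_assoc, mul_assoc, hu0v1, mul_zero, mul_zero]
    have h1 := hχx _ hm
    rw [e2, state_zero hφ, mul_zero, zero_add] at h1
    have h2 : χ (star u0 * u0) = ((‖R.π u0 R.ξ‖ ^ 2 : ℝ) : ℂ) := by
      rw [← R.state _ hm, R.map_mul _ hu0s _ hu0, R.map_star _ hu0]
      have h3 := Cmp.inner_star_mul_self (R.π u0) R.ξ
      rw [h3]; push_cast; rfl
    rw [h2] at h1
    have h3 := congrArg Complex.re h1
    rw [Complex.ofReal_re, Complex.re_ofReal_mul] at h3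
    rw [e1]
    linarith
  · -- the intertwining property
    intro y hy
    set Y : H →L[ℂ] H := v2 * y * star v1 with hY
    have hYM : Y ∈ M := mul_mem (mul_mem h2M hy) (star_mem h1M)
    have hYn : ‖Y‖ ≤ ‖y‖ := by
      have ha : ‖v2‖ ≤ 1 := H8.isometry_norm_le h22
      have hb : ‖star v1‖ ≤ 1 := by rw [norm_star]; exact H8.isometry_norm_le h11
      calc ‖v2 * y * star v1‖ ≤ ‖v2 * y‖ * ‖star v1‖ := norm_mul_le _ _
        _ ≤ (‖v2‖ * ‖y‖) * ‖star v1‖ := mul_le_mul_of_nonneg_right (norm_mul_le _ _) (norm_nonneg _)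
        _ ≤ (1 * ‖y‖) * 1 := by gcongr
        _ = ‖y‖ := by ring
    have h1 : χ (Y * u0) = ((1 / 2 : ℝ) : ℂ) * ψ (y * (star v1 * u0 * v2)) := by
      rw [hχx _ (mul_mem hYM hu0)]
      have e1 : star v1 * (Y * u0) * v1 = 0 := by
        rw [hY]
        calc star v1 * (v2 * y * star v1 * u0) * v1
            = (star v1 * v2) * (y * star v1 * u0 * v1) := by simp only [mul_assoc]
          _ = 0 := by rw [h12, zero_mul]
      have e2 : star v2 * (Y * u0) * v2 = y * (star v1 * u0 * v2) := by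
        rw [hY]
        calc star v2 * (v2 * y * star v1 * u0) * v2
            = (star v2 * v2) * (y * (star v1 * u0 * v2)) := by simp only [mul_assoc]
          _ = _ := by rw [h22, one_mul]
      rw [e1, e2, state_zero hφ, mul_zero, zero_add]
    have h2 : χ (u0 * Y) = ((1 / 2 : ℝ) : ℂ) * φ (star v1 * u0 * v2 * y) := by
      rw [hχx _ (mul_mem hu0 hYM)]
      have e1 : star v1 * (u0 * Y) * v1 = star v1 * u0 * v2 * y := by
        rw [hY]
        calc star v1 * (u0 * (v2 * y * star v1)) * v1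
            = (star v1 * u0 * v2 * y) * (star v1 * v1) := by simp only [mul_assoc]
          _ = _ := by rw [h11, mul_one]
      have e2 : star v2 * (u0 * Y) * v2 = 0 := by
        rw [hY]
        calc star v2 * (u0 * (v2 * y * star v1)) * v2
            = (star v2 * u0 * v2 * y) * (star v1 * v2) := by simp only [mul_assoc]
          _ = 0 := by rw [h12, mul_zero]
      rw [e1, e2, state_zero hψ, mul_zero, add_zero]
    have h3 := R.comm_bound D (R.mem _ hu0) (R.mem _ hYM)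
    have e3 : ⟪R.ξ, R.π Y (R.π u0 R.ξ)⟫_ℂ = χ (Y * u0) := by
      rw [← R.state _ (mul_mem hYM hu0), R.map_mul _ hYM _ hu0]; rfl
    have e4 : ⟪R.ξ, R.π u0 (R.π Y R.ξ)⟫_ℂ = χ (u0 * Y) := by
      rw [← R.state _ (mul_mem hu0 hYM), R.map_mul _ hu0 _ hYM]; rfl
    rw [e3, e4, h1, h2, ← mul_sub, norm_mul, Complex.norm_real] at h3
    have h4 : ‖(1 / 2 : ℝ)‖ = 1 / 2 := by norm_num
    rw [h4] at h3
    have h5 : ‖R.π Y‖ ≤ ‖y‖ := (R.norm_le _ hYM).trans hYn
    have h6 : 2 * ‖D.cm (R.π u0) R.ξ‖ * ‖R.π Y‖ ≤ 2 * τ * ‖y‖ := by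
      apply mul_le_mul _ h5 (norm_nonneg _) (by positivity)
      linarith
    have h7 : 4 * τ * ‖y‖ ≤ δ * ‖y‖ := mul_le_mul_of_nonneg_right (by linarith) (norm_nonneg _)
    linarith

end Vale.Agent.P132
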