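import Vale.Agent.P132.N723.Irr
import Vale.Agent.P132.N723.Piece
import Vale.Agent.P132.N18.MU
import Vale.Agent.P132.N8.Trans

/-!
# P132: asymptotically central matrix algebras, irreducible centralizers
-/

open Filter Topology
open scoped ComplexConjugate InnerProductSpace

namespace Vale.Agent.P132

universe u

variable {H : Type u} [NormedAddCommGroup H] [InnerProductSpace ℂ H] [CompleteSpace H]

/-- faithful normal states near a given normal state -/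
theorem near_faithful [TopologicalSpace.SeparableSpace H] {M : VonNeumannAlgebra H}
    {φ : (H →L[ℂ] H) → ℂ} (hφ : IsNormalState M φ) {ε : ℝ} (hε : 0 < ε) :
    ∃ θ : (H →L[ℂ] H) → ℂ, IsNormalState M θ ∧ IsFaithful M θ ∧
      ∀ y ∈ M, ‖θ y - φ y‖ ≤ ε / 2 * ‖y‖ := by
  have : Nontrivial H := by
    by_contra hn
    rw [not_nontrivial_iff_subsingleton] at hn
    obtain ⟨η, h1, -⟩ := hφ
    have h2 : (fun i => ‖η i‖ ^ 2) = fun _ => (0 : ℝ) := by
      funext i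
      rw [Subsingleton.elim (η i) 0]; simp
    rw [h2] at h1
    exact one_ne_zero (h1.unique hasSum_zero)
  obtain ⟨χ, hχ, hχf⟩ := exists_faithful M
  set t : ℝ := min (1 / 2) (ε / 4) with ht
  have ht0 : 0 < t := lt_min (by norm_num) (by positivity)
  have ht1 : t ≤ 1 / 2 := min_le_left _ _
  have htε : t ≤ ε / 4 := min_le_right _ _
  have hN : NPF M (fun x => ((1 - t : ℝ) : ℂ) * φ x) ((1 - t) * 1) := by
    obtain ⟨η, h1, h2⟩ := hφ
    exact NPF.smul ⟨η, 1, h1, le_rfl, h2⟩ (by linarith)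
  have hN' : NPF M (fun x => ((t : ℝ) : ℂ) * χ x) (t * 1) := by
    obtain ⟨η, h1, h2⟩ := hχ
    exact NPF.smul ⟨η, 1, h1, le_rfl, h2⟩ ht0.le
  obtain ⟨θ, hθ, hθe⟩ := NPF.sum (Finset.univ : Finset Bool)
    (ρ := fun b => if b then (fun x => ((1 - t : ℝ) : ℂ) * φ x) else fun x => ((t : ℝ) : ℂ) * χ x)
    (m := fun b => if b then (1 - t) * 1 else t * 1) (by
      intro b _
      cases b
      · simpa using hN'
      · simpa using hN)
  have hθx : ∀ x ∈ M, θ x = ((1 - t : ℝ) : ℂ) * φ x + ((t : ℝ) : ℂ) * χ x := by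
    intro x hx
    rw [hθe x hx, Fintype.sum_bool]
    simp
  have hθn : IsNormalState M θ := hθ.normal (by
    rw [hθx 1 (one_mem M), state_one hφ, state_one hχ]
    push_cast
    ring)
  have hθf : IsFaithful M θ := by
    intro x hx h0
    apply hχf x hx
    have hm := mul_mem (star_mem hx) hx
    rw [hθx _ hm] at h0
    have h1 := state_sq_nonneg hφ hx
    have h2 := state_sq_nonneg hχ hx
    have h3 := congrArg Complex.re h0
    rw [Complex.add_re, Complex.re_ofReal_mul, Complex.re_ofReal_mul, Complex.zero_re] at h3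
    have h4 : (χ (star x * x)).re = 0 := by nlinarith
    obtain ⟨V, -, hV⟩ := PD.exists_vec hχ
    rw [hV _ hm, amp_mul, amp_star, Cmp.inner_star_mul_self] at h4 ⊢
    rw [← Complex.ofReal_pow, Complex.ofReal_re] at h4
    rw [← Complex.ofReal_pow, h4]
    rfl
  have hclose : ∀ y ∈ M, ‖θ y - φ y‖ ≤ ε / 2 * ‖y‖ := by
    intro y hy
    have e : θ y - φ y = ((t : ℝ) : ℂ) * (χ y - φ y) := by
      rw [hθx y hy]; push_cast; ring
    rw [e, norm_mul, Complex.norm_real, Real.norm_of_nonneg ht0.le]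
    have h1 := norm_sub_le (χ y) (φ y)
    have h2 := state_norm_le hχ hy
    have h3 := state_norm_le hφ hy
    have h4 : ‖χ y - φ y‖ ≤ 2 * ‖y‖ := by linarith
    calc t * ‖χ y - φ y‖ ≤ (ε / 4) * (2 * ‖y‖) :=
          mul_le_mul htε h4 (norm_nonneg _) (by positivity)
      _ = ε / 2 * ‖y‖ := by ring
  exact ⟨θ, hθn, hθf, hclose⟩

theorem hmu_main {M : VonNeumannAlgebra H} (hM : IsTypeIIIOneFactor M) : HMU M := by
  intro φ hφ hf x hx hx1 k δ hδ
  exact N18.exists_mu hM (fun φ ψ hφ hφf hψ hψf δ hδ =>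
    N8.transitivity hM (c := 1 / 100) (by norm_num)
      (fun φ ψ hφ hφf hψ hψf δ hδ => exists_piece hM hφ hφf hψ hψf hδ) hφ hφf hψ hψf hδ)
    hφ hf hx hx1 k hδ

/-- matrix algebras almost in the centralizer, with small averages of a finite set -/
theorem matrix_main {M : VonNeumannAlgebra H} (hM : IsTypeIIIOneFactor M)
    {φ : (H →L[ℂ] H) → ℂ} (hφ : IsNormalState M φ) (hf : IsFaithful M φ)
    (X : Finset (H →L[ℂ] H)) (hX : ∀ x ∈ X, x ∈ M) {δ : ℝ} (hδ : 0 < δ) :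
    ∃ (n : ℕ) (e : Fin n → Fin n → (H →L[ℂ] H)), MU M e ∧
      (∀ y ∈ M, ‖φ (mavg e y) - φ y‖ ≤ δ * ‖y‖) ∧
      ∀ x ∈ X, (φ (star (mavg e x - φ x • 1) * (mavg e x - φ x • 1))).re ≤ δ := by
  classical
  set c : ℝ := ∑ x ∈ X, ‖x‖ + 1 with hc
  have hc1 : 1 ≤ c := by
    have : 0 ≤ ∑ x ∈ X, ‖x‖ := Finset.sum_nonneg fun x _ => norm_nonneg x
    linarith
  have hc0 : 0 < c := by linarith
  have hxc : ∀ x ∈ X, ‖x‖ ≤ c := by
    intro x hx
    have := Finset.single_le_sum (f := fun x : H →L[ℂ] H => ‖x‖) (fun x _ => norm_nonneg x) hx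
    have h2 : ‖x‖ ≤ ∑ x ∈ X, ‖x‖ := this
    linarith
  let eX := X.equivFin
  let x : ℕ → (H →L[ℂ] H) := fun j =>
    if h : j < X.card then ((c⁻¹ : ℝ) : ℂ) • ((eX.symm ⟨j, h⟩ : X) : H →L[ℂ] H) else 0
  have hxM : ∀ j, x j ∈ M := by
    intro j
    show (if h : j < X.card then ((c⁻¹ : ℝ) : ℂ) • ((eX.symm ⟨j, h⟩ : X) : H →L[ℂ] H) else 0) ∈ M
    by_cases h : j < X.card
    · rw [dif_pos h]
      exact M.toStarSubalgebra.smul_mem (hX _ (eX.symm ⟨j, h⟩).2) _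
    · rw [dif_neg h]; exact zero_mem M
  have hx1 : ∀ j, ‖x j‖ ≤ 1 := by
    intro j
    show ‖(if h : j < X.card then ((c⁻¹ : ℝ) : ℂ) • ((eX.symm ⟨j, h⟩ : X) : H →L[ℂ] H) else 0)‖ ≤ 1
    by_cases h : j < X.card
    · rw [dif_pos h, norm_smul, Complex.norm_real, Real.norm_of_nonneg (by positivity),
        inv_mul_le_iff₀ hc0, mul_one]
      exact hxc _ (eX.symm ⟨j, h⟩).2
    · rw [dif_neg h, norm_zero]; exact zero_le_one
  obtain ⟨n, e, h1, h2, h3⟩ := hmu_main hM φ hφ hf x hxM hx1 X.card (δ / c ^ 2) (by positivity)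
  refine ⟨n, e, h1, fun y hy => (h2 y hy).trans ?_, fun y hy => ?_⟩
  · refine mul_le_mul_of_nonneg_right ?_ (norm_nonneg _)
    exact div_le_self hδ.le (one_le_pow₀ hc1)
  · have hj := (eX ⟨y, hy⟩).2
    have h4 := h3 (eX ⟨y, hy⟩) hj
    have e1 : x (eX ⟨y, hy⟩) = ((c⁻¹ : ℝ) : ℂ) • y := by
      show (if h : ((eX ⟨y, hy⟩ : Fin X.card) : ℕ) < X.card then
        ((c⁻¹ : ℝ) : ℂ) • ((eX.symm ⟨_, h⟩ : X) : H →L[ℂ] H) else 0) = _
      rw [dif_pos hj]
      simp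
    have hyM := hX y hy
    set z : H →L[ℂ] H := mavg e y - φ y • 1 with hz
    have hzM : z ∈ M := sub_mem (mavg_mem h1 hyM) (M.toStarSubalgebra.smul_mem (one_mem M) _)
    have e2 : mavg e (x (eX ⟨y, hy⟩)) - φ (x (eX ⟨y, hy⟩)) • 1 = ((c⁻¹ : ℝ) : ℂ) • z := by
      rw [e1, mavg_smul, state_smul hφ _ hyM, hz, smul_sub, smul_smul]
    rw [e2, star_smul, smul_mul_smul_comm] at h4
    have e3 : star ((c⁻¹ : ℝ) : ℂ) * ((c⁻¹ : ℝ) : ℂ) = (((c ^ 2)⁻¹ : ℝ) : ℂ) := by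
      rw [show star ((c⁻¹ : ℝ) : ℂ) = ((c⁻¹ : ℝ) : ℂ) from Complex.conj_ofReal _,
        ← Complex.ofReal_mul]
      congr 1
      rw [sq, mul_inv]
    rw [e3, state_smul hφ _ (mul_mem (star_mem hzM) hzM), Complex.re_ofReal_mul,
      div_eq_inv_mul] at h4
    exact le_of_mul_le_mul_left h4 (by positivity)

/-- increasing matrix algebras in the centralizer, with trivial relative commutant -/
theorem irr_dense [TopologicalSpace.SeparableSpace H] {M : VonNeumannAlgebra H}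
    (hM : IsTypeIIIOneFactor M) {φ : (H →L[ℂ] H) → ℂ} (hφ : IsNormalState M φ)
    {ε : ℝ} (hε : 0 < ε) :
    ∃ ψ : (H →L[ℂ] H) → ℂ, IsNormalState M ψ ∧ IsFaithful M ψ ∧
      (∀ y ∈ M, ‖ψ y - φ y‖ ≤ ε * ‖y‖) ∧
      ∃ (n : ℕ → ℕ) (e : ∀ k, Fin (n k) → Fin (n k) → (H →L[ℂ] H)), (∀ k, MU M (e k)) ∧
        (∀ k i j, e k i j ∈ Submodule.span ℂ (Set.range fun p : Fin (n (k + 1)) × Fin (n (k + 1)) =>
          e (k + 1) p.1 p.2)) ∧
        (∀ k i j, e k i j ∈ stateCentralizer M ψ) ∧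
        ∀ y ∈ M, (∀ k i j, e k i j * y = y * e k i j) → ∃ c : ℂ, y = c • 1 := by
  obtain ⟨θ, h1, h2, h3⟩ := near_faithful hφ hε
  obtain ⟨ψ, h4, h5, h6, n, a, h7, h8, h9, h10⟩ := irr_main hM (hmu_main hM) h1 h2
    (ε := ε / 2) (by positivity)
  refine ⟨ψ, h4, h5, fun y hy => ?_, n, fun k => cmu (a k), fun k => (h7 k).mu, h8,
    fun k i j => ⟨(h7 k).mu.mem i j, fun y hy => h9 k i j y hy⟩, h10⟩
  have h11 := norm_add_le (ψ y - θ y) (θ y - φ y)
  rw [sub_add_sub_cancel] at h11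
  have h12 := h3 y hy
  have h13 := h6 y hy
  linarith

end Vale.Agent.P132
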