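import Vale.Agent.P132.N723.Seq
import Vale.Agent.P132.N859.Lim

/-!
# P132: the limit state, irreducibility
-/

open Filter Topology
open scoped ComplexConjugate InnerProductSpace

namespace Vale.Agent.P132

universe u

variable {H : Type u} [NormedAddCommGroup H] [InnerProductSpace ℂ H] [CompleteSpace H]

section

variable {M : VonNeumannAlgebra H} {ι κ : Type} [Fintype ι] [DecidableEq ι] [Fintype κ]
  [DecidableEq κ] {a : ι → (H →L[ℂ] H)} {b : κ → (H →L[ℂ] H)}

omit [Fintype ι] [DecidableEq ι] in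
theorem spn_comm {y : H →L[ℂ] H} (h : ∀ i j, cmu a i j * y = y * cmu a i j) {s : H →L[ℂ] H}
    (hs : s ∈ spn a) : s * y = y * s := by
  induction hs using Submodule.span_induction with
  | mem x hx => obtain ⟨p, rfl⟩ := hx; exact h p.1 p.2
  | zero => rw [zero_mul, mul_zero]
  | add x z _ _ hx hz => rw [add_mul, mul_add, hx, hz]
  | smul c x _ hx => rw [smul_mul_assoc, mul_smul_comm, hx]

omit [CompleteSpace H] [DecidableEq ι] in
theorem mavg_add (e : ι → ι → (H →L[ℂ] H)) (x y : H →L[ℂ] H) :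
    mavg e (x + y) = mavg e x + mavg e y := by
  rw [mavg, mavg, mavg, ← smul_add, ← Finset.sum_add_distrib]
  congr 1
  refine Finset.sum_congr rfl fun i _ => ?_
  rw [← Finset.sum_add_distrib]
  exact Finset.sum_congr rfl fun j _ => by rw [mul_add, add_mul]

omit [CompleteSpace H] [DecidableEq ι] in
theorem mavg_smul (e : ι → ι → (H →L[ℂ] H)) (c : ℂ) (x : H →L[ℂ] H) :
    mavg e (c • x) = c • mavg e x := by
  have h : ∑ i, ∑ j, e i j * (c • x) * e j i = c • ∑ i, ∑ j, e i j * x * e j i := by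
    simp only [mul_smul_comm, smul_mul_assoc, Finset.smul_sum]
  rw [mavg, mavg, h, smul_comm]

/-- the span of the matrix units is in the multiplicative domain -/
theorem mavg_spn (h : CF M a) {s : H →L[ℂ] H} (hs : s ∈ spn a) (y : H →L[ℂ] H) :
    mavg (cmu a) (s * y) = mavg (cmu a) (y * s) := by
  induction hs using Submodule.span_induction with
  | mem x hx =>
    obtain ⟨⟨k, l⟩, rfl⟩ := hx
    have hmu := h.mu
    rw [mavg, mavg]
    congr 1
    show ∑ i, ∑ j, cmu a i j * (cmu a k l * y) * cmu a j i =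
      ∑ i, ∑ j, cmu a i j * (y * cmu a k l) * cmu a j i
    refine Finset.sum_congr rfl fun i _ => ?_
    rw [Finset.sum_eq_single k, Finset.sum_eq_single l]
    · rw [← mul_assoc, hmu.mul, if_pos rfl, ← mul_assoc (cmu a i l) y, mul_assoc _ (cmu a k l),
        hmu.mul, if_pos rfl]
    · intro j _ hj
      rw [mul_assoc, mul_assoc y, hmu.mul, if_neg (Ne.symm hj), mul_zero, mul_zero]
    · intro h'; exact absurd (Finset.mem_univ l) h'
    · intro j _ hj
      rw [← mul_assoc, hmu.mul, if_neg hj, zero_mul, zero_mul]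
    · intro h'; exact absurd (Finset.mem_univ k) h'
  | zero => rw [zero_mul, mul_zero]
  | add x z _ _ hx hz => rw [add_mul, mul_add, mavg_add, mavg_add, hx, hz]
  | smul c x _ hx => rw [smul_mul_assoc, mul_smul_comm, mavg_smul, mavg_smul, hx]

theorem mavg_state (ha : CF M a) {φ : (H →L[ℂ] H) → ℂ} (hφ : IsNormalState M φ) [Nonempty ι] :
    IsNormalState M fun y => φ (mavg (cmu a) y) := by
  obtain ⟨η, h1, h2⟩ := th_state ha hφ
  -- `φ (th (cex y))` is the average of `y ↦ φ_a (a_i* y a_i)`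
  have h3 : ∀ i, NPF M (fun y => φ (th a (star (a i) * y * a i))) 1 := by
    intro i
    have hi : star (a i) * a i = 1 := by rw [ha.orth, if_pos rfl]
    refine ⟨fun k => a i (η k), 1, ?_, le_rfl, fun x hx => ?_⟩
    · simpa only [H8.isometry_norm_apply hi] using h1
    · have h4 := h2 _ (mul_mem (mul_mem (star_mem (ha.mem i)) hx) (ha.mem i))
      have e : (fun k => ⟪a i (η k), x (a i (η k))⟫_ℂ) =
          fun k => ⟪η k, (star (a i) * x * a i) (η k)⟫_ℂ := by
        funext k
        exact (BC.inner_star' (a i) _ _).symm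
      rw [e]
      exact h4
  obtain ⟨θ, h4, h5⟩ := NPF.sum (Finset.univ : Finset ι)
    fun i _ => (h3 i).smul (c := ((Fintype.card ι : ℝ))⁻¹) (by positivity)
  have h6 : ∀ y ∈ M, θ y = φ (mavg (cmu a) y) := by
    intro y hy
    rw [h5 y hy, mavg_eq_th, cex, th_smul]
    have e1 : th a (∑ i, star (a i) * y * a i) = ∑ i, th a (star (a i) * y * a i) := by
      rw [th]
      simp only [th]
      rw [Finset.sum_comm]
      refine Finset.sum_congr rfl fun k _ => ?_
      rw [Finset.mul_sum, Finset.sum_mul]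
    have hm : ∀ i ∈ (Finset.univ : Finset ι), th a (star (a i) * y * a i) ∈ M := fun i _ =>
      th_mem ha (mul_mem (mul_mem (star_mem (ha.mem i)) hy) (ha.mem i))
    rw [e1, state_smul hφ _ (sum_mem hm), state_sum hφ _ hm, Finset.mul_sum]
    refine Finset.sum_congr rfl fun i _ => ?_
    push_cast
    rfl
  obtain ⟨ζ, h7, h8⟩ := h4.normal (by
    rw [h6 1 (one_mem M), mavg_fix ha.mu (fun i j => by rw [mul_one, one_mul]), state_one hφ])
  exact ⟨ζ, h7, fun y hy => by
    have := h8 y hy
    rw [h6 y hy] at this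
    exact this⟩

end

theorem amp_norm_sub_eq {M : VonNeumannAlgebra H} {ψ : (H →L[ℂ] H) → ℂ} {W : EllTwo H}
    (hW : ∀ x ∈ M, ψ x = ⟪W, amp x W⟫_ℂ) {z : H →L[ℂ] H} (hz : z ∈ M) {r : ℝ} (hr : 0 ≤ r)
    (h : (ψ (star z * z)).re ≤ r ^ 2) : ‖amp z W‖ ≤ r := by
  rw [vec_sq hW hz] at h
  exact (pow_le_pow_iff_left₀ (norm_nonneg _) hr two_ne_zero).1 h

/-- **The limit.** -/
theorem irr_main [TopologicalSpace.SeparableSpace H] {M : VonNeumannAlgebra H}
    (hM : IsTypeIIIOneFactor M) (hmu : HMU M) {φ : (H →L[ℂ] H) → ℂ} (hφ : IsNormalState M φ)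
    (hf : IsFaithful M φ) {ε : ℝ} (hε : 0 < ε) :
    ∃ ψ : (H →L[ℂ] H) → ℂ, IsNormalState M ψ ∧ IsFaithful M ψ ∧
      (∀ y ∈ M, ‖ψ y - φ y‖ ≤ ε * ‖y‖) ∧
      ∃ (n : ℕ → ℕ) (a : ∀ k, Fin (n k) → (H →L[ℂ] H)), (∀ k, CF M (a k)) ∧
        (∀ k i j, cmu (a k) i j ∈ spn (a (k + 1))) ∧
        (∀ k i j, ∀ y ∈ M, ψ (cmu (a k) i j * y) = ψ (y * cmu (a k) i j)) ∧
        ∀ y ∈ M, (∀ k i j, cmu (a k) i j * y = y * cmu (a k) i j) → ∃ c : ℂ, y = c • 1 := by
  obtain ⟨V, hV1, hV⟩ := PD.exists_vec hφ
  obtain ⟨x, hxM, hx1, hxd⟩ := exists_dense_ball M V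
  obtain ⟨n, a, h⟩ := exists_cseq hM hmu hφ hf hxM hx1 hε
  have hne : ∀ k, Nonempty (Fin (n k)) := by
    intro k
    by_contra h0
    rw [not_nonempty_iff] at h0
    have h1 := (h.cf k).sum
    rw [Finset.univ_eq_empty, Finset.sum_empty] at h1
    have h2 := state_one hφ
    rw [← h1, state_zero hφ] at h2
    exact zero_ne_one h2
  set E : ℕ → (H →L[ℂ] H) → (H →L[ℂ] H) := fun k => mavg (cmu (a k)) with hE
  have hEM : ∀ k, ∀ {y : H →L[ℂ] H}, y ∈ M → E k y ∈ M := fun k y hy => mavg_mem (h.cf k).mu hy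
  have hφk : ∀ k, IsNormalState M fun y => φ (E k y) := fun k => mavg_state (h.cf k) hφ
  -- the limit
  have hgeo : ∀ y ∈ M, ∀ k, dist (φ (E k y)) (φ (E (k + 1) y)) ≤ ε * ‖y‖ / 2 / 2 ^ k := by
    intro y hy k
    rw [dist_comm, dist_eq_norm]
    refine (h.close k y hy).trans (le_of_eq ?_)
    rw [pow_succ]
    field_simp
  have hex : ∀ y : H →L[ℂ] H, ∃ z : ℂ, y ∈ M → Tendsto (fun k => φ (E k y)) atTop (𝓝 z) := by
    intro y
    by_cases hy : y ∈ M
    · obtain ⟨z, hz⟩ := cauchySeq_tendsto_of_complete (cauchySeq_of_le_geometric_two (hgeo y hy))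
      exact ⟨z, fun _ => hz⟩
    · exact ⟨0, fun h' => absurd h' hy⟩
  choose ψ hψ using hex
  have hclose : ∀ k, ∀ y ∈ M, ‖φ (E k y) - ψ y‖ ≤ ε / 2 ^ k * ‖y‖ := by
    intro k y hy
    rw [← dist_eq_norm]
    refine (dist_le_of_le_geometric_two_of_tendsto (hgeo y hy) (hψ y hy) k).trans (le_of_eq ?_)
    ring
  have hψn : IsNormalState M ψ := normal_of_norm_limit hφk hclose
  obtain ⟨W, hW1, hW⟩ := PD.exists_vec hψn
  -- nested spans
  have hspn1 : ∀ k s, s ∈ spn (a k) → s ∈ spn (a (k + 1)) := by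
    intro k s hs
    have h1 : spn (a k) ≤ spn (a (k + 1)) := by
      rw [spn, Submodule.span_le]
      rintro _ ⟨p, rfl⟩
      exact h.ref k p.1 p.2
    exact h1 hs
  have hspn : ∀ k l, k ≤ l → ∀ s, s ∈ spn (a k) → s ∈ spn (a l) := by
    intro k l hkl
    induction l, hkl using Nat.le_induction with
    | base => exact fun s hs => hs
    | succ l _ ih => exact fun s hs => hspn1 l s (ih s hs)
  have hcm : ∀ k i j, cmu (a k) i j ∈ spn (a k) := fun k i j =>
    Submodule.subset_span ⟨(i, j), rfl⟩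
  -- centralizer
  have hcen : ∀ k i j, ∀ y ∈ M, ψ (cmu (a k) i j * y) = ψ (y * cmu (a k) i j) := by
    intro k i j y hy
    have hc := (h.cf k).mu.mem i j
    refine tendsto_nhds_unique_of_eventuallyEq (hψ _ (mul_mem hc hy)) (hψ _ (mul_mem hy hc)) ?_
    filter_upwards [eventually_ge_atTop k] with l hl
    show φ (mavg (cmu (a l)) _) = φ (mavg (cmu (a l)) _)
    rw [mavg_spn (h.cf l) (hspn k l hl _ (hcm k i j))]
  -- faithfulness
  have hψf : IsFaithful M ψ := by
    obtain ⟨f, hfM, hfs, hff, hfW, hsup⟩ := exists_support M W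
    have hone : ∀ k i j, f * cmu (a k) i j = f * cmu (a k) i j * f := by
      intro k i j
      have hmu' := (h.cf k).mu
      have hcM := hmu'.mem i j
      have hm := mul_mem hfM hcM
      apply hsup _ hm
      have e : star (f * cmu (a k) i j) * (f * cmu (a k) i j) =
          cmu (a k) j i * (f * cmu (a k) i j) := by
        rw [star_mul, hmu'.adj, hfs, mul_assoc, ← mul_assoc f f, hff]
      have h1 : ψ (star (f * cmu (a k) i j) * (f * cmu (a k) i j)) = 0 := by
        rw [e, hcen k j i _ hm, mul_assoc, hW _ (mul_mem hfM (mul_mem hcM (hmu'.mem j i))), amp_mul,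
          mul_apply_eq_comp]
        have e2 : ⟪W, amp f (amp (cmu (a k) i j * cmu (a k) j i) W)⟫_ℂ =
            ⟪amp f W, amp (cmu (a k) i j * cmu (a k) j i) W⟫_ℂ := by
          rw [← BC.inner_star' (amp f), ← amp_star, hfs]
        rw [e2, hfW, inner_zero_left]
      have h2 := amp_norm_sub_eq hW hm le_rfl (by rw [h1]; simp)
      exact norm_le_zero_iff.1 h2
    have hcomm : ∀ k i j, cmu (a k) i j * f = f * cmu (a k) i j := by
      intro k i j
      have h1 := congrArg star (hone k j i)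
      rw [star_mul, star_mul, star_mul, (h.cf k).mu.adj, hfs, ← mul_assoc] at h1
      rw [h1, ← hone k i j]
    have hfix : ∀ k, E k f = f := fun k => by
      have := hne k
      exact mavg_fix (h.cf k).mu (hcomm k)
    have h1 : ψ f = φ f := by
      have h2 := hψ f hfM
      simp only [hfix] at h2
      exact tendsto_nhds_unique h2 tendsto_const_nhds
    have h2 : ψ f = 0 := by rw [hW f hfM, hfW, inner_zero_right]
    have h3 : f = 0 := by
      apply hf f hfM
      rw [hfs, hff, ← h1, h2]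
    intro y hy h0
    have h4 := amp_norm_sub_eq hW hy le_rfl (by rw [h0]; simp)
    rw [hsup y hy (norm_le_zero_iff.1 h4), h3, mul_zero]
  refine ⟨ψ, hψn, hψf, fun y hy => ?_, n, a, h.cf, h.ref, hcen, ?_⟩
  · have h1 := hclose 0 y hy
    have h2 : E 0 y = y := h.zero y
    rw [h2, pow_zero, div_one] at h1
    rwa [norm_sub_rev]
  · -- irreducibility
    have hK1 : ∀ k, ∀ d ∈ M, ψ (E k d) = ψ d := by
      intro k d hd
      have hmu' := (h.cf k).mu
      have := hne k
      have hm : ∀ i j, cmu (a k) i j * d * cmu (a k) j i ∈ M := fun i j =>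
        mul_mem (mul_mem (hmu'.mem i j) hd) (hmu'.mem j i)
      have h1 : ∀ i j, ψ (cmu (a k) i j * d * cmu (a k) j i) = ψ (d * cmu (a k) j j) := by
        intro i j
        rw [mul_assoc, hcen k i j _ (mul_mem hd (hmu'.mem j i)), mul_assoc, hmu'.mul, if_pos rfl]
      have h2 : ∀ i, ψ (∑ j, cmu (a k) i j * d * cmu (a k) j i) = ψ d := by
        intro i
        rw [state_sum hψn _ fun j _ => hm i j]
        simp only [h1]
        rw [← state_sum hψn _ fun j _ => mul_mem hd (hmu'.mem j j), ← Finset.mul_sum, hmu'.sum,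
          mul_one]
      show ψ (mavg (cmu (a k)) d) = ψ d
      rw [mavg, state_smul hψn _ (sum_mem fun i _ => sum_mem fun j _ => hm i j),
        state_sum hψn _ fun i _ => sum_mem fun j _ => hm i j]
      simp only [h2]
      rw [Finset.sum_const, Finset.card_univ, nsmul_eq_mul, ← mul_assoc,
        inv_mul_cancel₀ cf_card_ne, one_mul]
    have hmod : ∀ k, ∀ s d : H →L[ℂ] H, (∀ i j, cmu (a k) i j * s = s * cmu (a k) i j) →
        E k (s * d) = s * E k d := by
      intro k s d hs
      show mavg _ _ = s * mavg _ _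
      rw [mavg, mavg, mul_smul_comm]
      congr 1
      rw [Finset.mul_sum]
      refine Finset.sum_congr rfl fun i _ => ?_
      rw [Finset.mul_sum]
      refine Finset.sum_congr rfl fun j _ => ?_
      rw [← mul_assoc, hs i j]
      simp only [mul_assoc]
    have hEc : ∀ k d, ∀ i j, cmu (a k) i j * E k d = E k d * cmu (a k) i j := fun k d i j =>
      mavg_comm (h.cf k) d i j
    have hEcs : ∀ k d, ∀ i j, cmu (a k) i j * star (E k d) = star (E k d) * cmu (a k) i j := by
      intro k d i j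
      have h1 := congrArg star (hEc k d j i)
      rw [star_mul, star_mul, (h.cf k).mu.adj] at h1
      exact h1.symm
    have hK2 : ∀ k, ∀ d ∈ M, ‖amp (E k d) W‖ ≤ ‖amp d W‖ := by
      intro k d hd
      have hEd := hEM k hd
      have h1 : ψ (star (E k d) * E k d) = ψ (star (E k d) * d) := by
        rw [← hmod k _ d (hEcs k d), hK1 k _ (mul_mem (star_mem hEd) hd)]
      rw [hW _ (mul_mem (star_mem hEd) hEd), hW _ (mul_mem (star_mem hEd) hd), amp_mul, amp_mul,
        amp_star, Cmp.inner_star_mul_self, mul_apply_eq_comp, BC.inner_star'] at h1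
      have h2 : ‖amp (E k d) W‖ ^ 2 ≤ ‖amp (E k d) W‖ * ‖amp d W‖ := by
        have h3 := norm_inner_le_norm (𝕜 := ℂ) (amp (E k d) W) (amp d W)
        rw [← h1, norm_pow, Complex.norm_real, norm_norm] at h3
        exact h3
      by_cases h0 : ‖amp (E k d) W‖ = 0
      · rw [h0]; exact norm_nonneg _
      · have h3 : 0 < ‖amp (E k d) W‖ := lt_of_le_of_ne (norm_nonneg _) (Ne.symm h0)
        nlinarith
    have hK3 : ∀ i k, i < k → ‖amp (E (k + 1) (x i) - φ (E k (x i)) • 1) W‖ ^ 2 ≤
        5 * (ε / 2 ^ (k + 1)) := by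
      intro i k hik
      set z : H →L[ℂ] H := E (k + 1) (x i) - φ (E k (x i)) • 1 with hz
      have h1M : φ (E k (x i)) • (1 : H →L[ℂ] H) ∈ M := M.toStarSubalgebra.smul_mem (one_mem M) _
      have hzM : z ∈ M := sub_mem (hEM (k + 1) (hxM i)) h1M
      have hzz : star z * z ∈ M := mul_mem (star_mem hzM) hzM
      have hz2 : ‖z‖ ≤ 2 := by
        have h1 : ‖E (k + 1) (x i)‖ ≤ 1 := (mavg_norm_le (h.cf (k + 1)) _).trans (hx1 i)
        have h2 : ‖φ (E k (x i))‖ ≤ 1 :=
          (state_norm_le hφ (hEM k (hxM i))).trans ((mavg_norm_le (h.cf k) _).trans (hx1 i))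
        have h3 : ‖φ (E k (x i)) • (1 : H →L[ℂ] H)‖ ≤ 1 := by
          rw [norm_smul]
          have h4 : ‖(1 : H →L[ℂ] H)‖ ≤ 1 :=
            ContinuousLinearMap.opNorm_le_bound _ zero_le_one fun v => by simp
          calc _ ≤ (1 : ℝ) * 1 := mul_le_mul h2 h4 (norm_nonneg _) zero_le_one
            _ = 1 := one_mul _
        have h4 := norm_sub_le (E (k + 1) (x i)) (φ (E k (x i)) • (1 : H →L[ℂ] H))
        linarith
      have hzc : ∀ p q, cmu (a (k + 1)) p q * z = z * cmu (a (k + 1)) p q := by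
        intro p q
        rw [hz, mul_sub, sub_mul, hEc, mul_smul_comm, smul_mul_assoc, mul_one, one_mul]
      have hzcs : ∀ p q, cmu (a (k + 1)) p q * (star z * z) = star z * z * cmu (a (k + 1)) p q := by
        intro p q
        have h1 := congrArg star (hzc q p)
        rw [star_mul, star_mul, (h.cf (k + 1)).mu.adj] at h1
        rw [← mul_assoc, ← h1, mul_assoc, hzc, mul_assoc]
      have hfix : E (k + 1) (star z * z) = star z * z := by
        have := hne (k + 1)
        exact mavg_fix (h.cf (k + 1)).mu hzcs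
      have h1 := h.conv k i hik
      have h2 := hclose (k + 1) _ hzz
      rw [hfix] at h2
      have h3 : ‖star z * z‖ ≤ 4 := by
        calc ‖star z * z‖ ≤ ‖star z‖ * ‖z‖ := norm_mul_le _ _
          _ ≤ 2 * 2 := by
            rw [norm_star]
            exact mul_le_mul hz2 hz2 (norm_nonneg _) (by norm_num)
          _ = 4 := by norm_num
      have h4 : (ψ (star z * z)).re - (φ (star z * z)).re ≤ ‖φ (star z * z) - ψ (star z * z)‖ := by
        rw [← Complex.sub_re, norm_sub_rev]
        exact Complex.re_le_norm _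
      have h5 : ε / 2 ^ (k + 1) * ‖star z * z‖ ≤ ε / 2 ^ (k + 1) * 4 :=
        mul_le_mul_of_nonneg_left h3 (by positivity)
      have h6 : (φ (star z * z)).re ≤ ε / 2 ^ (k + 1) := h1
      rw [← vec_sq hW hzM]
      linarith
    have key : ∀ y ∈ M, ‖y‖ ≤ 1 → (∀ k i j, cmu (a k) i j * y = y * cmu (a k) i j) →
        y = ψ y • 1 := by
      intro y hy hy1 hyc
      have hbest : ∀ c : ℂ, ‖amp (y - ψ y • 1) W‖ ≤ ‖amp (y - c • 1) W‖ := by
        intro c
        set v := amp y W with hv
        have e1 : ∀ c : ℂ, amp (y - c • 1) W = v - c • W := fun c => rfl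
        have hψy : ψ y = ⟪W, v⟫_ℂ := hW y hy
        have horth : ⟪v - ψ y • W, (ψ y - c) • W⟫_ℂ = 0 := by
          have h1 : ⟪W, v - ψ y • W⟫_ℂ = 0 := by
            rw [inner_sub_right, inner_smul_right, inner_self_eq_norm_sq_to_K, hW1, hψy]
            simp
          rw [inner_smul_right, ← inner_conj_symm, h1, map_zero, mul_zero]
        have h2 := norm_add_sq_eq_norm_sq_add_norm_sq_of_inner_eq_zero _ _ horth
        have e2 : v - ψ y • W + (ψ y - c) • W = v - c • W := by
          rw [sub_smul]; abel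
        rw [e2] at h2
        rw [e1, e1]
        have h3 : 0 ≤ ‖(ψ y - c) • W‖ * ‖(ψ y - c) • W‖ := by positivity
        nlinarith [norm_nonneg (v - ψ y • W), norm_nonneg (v - c • W)]
      have hsmall : ∀ τ : ℝ, 0 < τ → ‖amp (y - ψ y • 1) W‖ ≤ τ := by
        intro τ hτ
        obtain ⟨η, hη, hsm⟩ := amp_small hφ hf W 2 (ε := τ / 2) (by positivity)
        obtain ⟨i, hi⟩ := hxd y hy hy1 (Real.sqrt η) (Real.sqrt_pos.2 hη)
        have hd : y - x i ∈ M := sub_mem hy (hxM i)
        have h1 : ‖amp (y - x i) W‖ ≤ τ / 2 := by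
          apply hsm _ hd
          · have := norm_sub_le y (x i)
            have := hx1 i
            linarith
          · have h3 : φ (star (y - x i) * (y - x i)) = (((‖amp (y - x i) V‖ ^ 2 : ℝ)) : ℂ) := by
              rw [hV _ (mul_mem (star_mem hd) hd), amp_mul, amp_star, Cmp.inner_star_mul_self]
              norm_cast
            rw [h3, Complex.norm_real, Real.norm_of_nonneg (by positivity)]
            calc ‖amp (y - x i) V‖ ^ 2 ≤ Real.sqrt η ^ 2 := pow_le_pow_left₀ (norm_nonneg _) hi 2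
              _ = η := Real.sq_sqrt hη.le
        have h2 : ∀ᶠ k : ℕ in atTop, 5 * (ε / 2 ^ (k + 1)) ≤ (τ / 2) ^ 2 := by
          have h4 : Tendsto (fun k : ℕ => 5 * (ε / 2 ^ (k + 1))) atTop (𝓝 0) := by
            have h5 : Tendsto (fun k : ℕ => (1 / 2 : ℝ) ^ k) atTop (𝓝 0) :=
              tendsto_pow_atTop_nhds_zero_of_lt_one (by norm_num) (by norm_num)
            have h6 := h5.const_mul (5 * ε / 2)
            rw [mul_zero] at h6
            refine h6.congr fun k => ?_
            rw [div_pow, one_pow, pow_succ]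
            field_simp
          exact h4.eventually_le_const (by positivity)
        obtain ⟨k, hk1, hk2⟩ := (h2.and (eventually_gt_atTop i)).exists
        have h3 := (hK3 i k hk2).trans hk1
        have h4 : ‖amp (E (k + 1) (x i) - φ (E k (x i)) • 1) W‖ ≤ τ / 2 :=
          (pow_le_pow_iff_left₀ (norm_nonneg _) (by positivity) two_ne_zero).1 h3
        have h5 : ‖amp (E (k + 1) (y - x i)) W‖ ≤ τ / 2 := (hK2 (k + 1) _ hd).trans h1
        have e : y - φ (E k (x i)) • 1 = E (k + 1) (y - x i) +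
            (E (k + 1) (x i) - φ (E k (x i)) • 1) := by
          have e1 : E (k + 1) (y - x i) = y - E (k + 1) (x i) := by
            have e2 : E (k + 1) y = y := by
              have := hne (k + 1)
              exact mavg_fix (h.cf (k + 1)).mu (hyc (k + 1))
            have e3 : E (k + 1) (y - x i) + E (k + 1) (x i) = E (k + 1) y := by
              show mavg _ _ + mavg _ _ = mavg _ _
              rw [← mavg_add, sub_add_cancel]
            rw [e2] at e3
            exact eq_sub_of_add_eq e3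
          rw [e1]; abel
        refine (hbest (φ (E k (x i)))).trans ?_
        rw [e, amp_add]
        exact (norm_add_le _ _).trans ((add_le_add h5 h4).trans (by linarith))
      have h1 : ‖amp (y - ψ y • 1) W‖ ≤ 0 := le_of_forall_pos_le_add fun τ hτ => by
        rw [zero_add]; exact hsmall τ hτ
      have hm : y - ψ y • 1 ∈ M := sub_mem hy (M.toStarSubalgebra.smul_mem (one_mem M) _)
      have h2 : y - ψ y • 1 = 0 := by
        apply hψf _ hm
        rw [hW _ (mul_mem (star_mem hm) hm), amp_mul, amp_star, Cmp.inner_star_mul_self,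
          norm_le_zero_iff.1 h1]
        simp
      exact sub_eq_zero.1 h2
    intro y hy hyc
    set c : ℝ := ‖y‖ + 1 with hcdef
    have hc0 : 0 < c := by positivity
    set y' : H →L[ℂ] H := ((c⁻¹ : ℝ) : ℂ) • y with hy'
    have hy'M : y' ∈ M := M.toStarSubalgebra.smul_mem hy _
    have hy'1 : ‖y'‖ ≤ 1 := by
      rw [hy', norm_smul, Complex.norm_real, Real.norm_of_nonneg (by positivity),
        inv_mul_le_iff₀ hc0]
      linarith
    have h1 := key y' hy'M hy'1 fun k i j => by
      rw [hy', mul_smul_comm, smul_mul_assoc, hyc]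
    refine ⟨(c : ℂ) * ψ y', ?_⟩
    have h5 : (c : ℂ) • y' = y := by
      rw [hy', smul_smul, ← Complex.ofReal_mul, mul_inv_cancel₀ hc0.ne', Complex.ofReal_one,
        one_smul]
    rw [mul_smul, ← h1, h5]

end Vale.Agent.P132
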