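import Vale.Agent.P132.N723.SpecCut

/-!
# P132: commutators of functions of an almost central element, polar parts
-/

open Filter Topology
open scoped ComplexConjugate InnerProductSpace BoundedContinuousFunction

namespace Vale.Agent.P132

universe u

variable {H : Type u} [NormedAddCommGroup H] [InnerProductSpace ℂ H] [CompleteSpace H]

namespace ModData

variable {M : VonNeumannAlgebra H} {ξ : H} (D : ModData M ξ)

theorem cm_mul_le {a b : H →L[ℂ] H} (ha : a ∈ M) (hb : b ∈ M) {A B : ℝ} (hA : ‖a‖ ≤ A)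
    (hB : ‖b‖ ≤ B) : ‖D.cm (a * b) ξ‖ ≤ A * ‖D.cm b ξ‖ + B * ‖D.cm a ξ‖ := by
  rw [D.cm_mul' ha hb]
  refine (norm_add_le _ _).trans (add_le_add ?_ ?_)
  · exact (a.le_opNorm _).trans (mul_le_mul_of_nonneg_right hA (norm_nonneg _))
  · exact ((D.Rm b).le_opNorm _).trans
      (mul_le_mul_of_nonneg_right ((D.norm_Rm_le b).trans hB) (norm_nonneg _))

theorem cm_pow_le {b : H →L[ℂ] H} (hb : b ∈ M) (h1 : ‖b‖ ≤ 1) (n : ℕ) :
    ‖D.cm (b ^ n) ξ‖ ≤ n * ‖D.cm b ξ‖ := by
  have hn : ∀ n : ℕ, ‖b ^ n‖ ≤ 1 := by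
    intro n
    induction n with
    | zero =>
      rw [pow_zero]
      exact ContinuousLinearMap.opNorm_le_bound _ zero_le_one fun v => by simp
    | succ n ih =>
      rw [pow_succ]
      calc ‖b ^ n * b‖ ≤ ‖b ^ n‖ * ‖b‖ := norm_mul_le _ _
        _ ≤ 1 * 1 := mul_le_mul ih h1 (norm_nonneg _) zero_le_one
        _ = 1 := one_mul _
  induction n with
  | zero => simp [D.cm_one_xi]
  | succ n ih =>
    rw [pow_succ]
    have h2 := D.cm_mul_le (pow_mem hb n) hb (hn n) h1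
    push_cast
    linarith

theorem cm_poly (q : Polynomial ℝ) : ∃ C : ℝ, 0 ≤ C ∧ ∀ b ∈ M, ‖b‖ ≤ 1 →
    ‖D.cm (Polynomial.aeval b q) ξ‖ ≤ C * ‖D.cm b ξ‖ := by
  induction q using Polynomial.induction_on' with
  | add p q hp hq =>
    obtain ⟨C, hC, h⟩ := hp
    obtain ⟨C', hC', h'⟩ := hq
    refine ⟨C + C', by positivity, fun b hb h1 => ?_⟩
    rw [map_add, D.cm_add, add_mul]
    exact (norm_add_le _ _).trans (add_le_add (h b hb h1) (h' b hb h1))
  | monomial n r =>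
    refine ⟨|r| * n, by positivity, fun b hb h1 => ?_⟩
    have e : Polynomial.aeval b (Polynomial.monomial n r) = (r : ℂ) • b ^ n := by
      rw [Polynomial.aeval_monomial, Algebra.algebraMap_eq_smul_one, smul_mul_assoc, one_mul]
      ext v
      simp
    rw [e, D.cm_smul, norm_smul, Complex.norm_real, Real.norm_eq_abs, mul_assoc]
    exact mul_le_mul_of_nonneg_left (D.cm_pow_le hb h1 n) (abs_nonneg r)

theorem cm_cfc {f : ℝ → ℝ} (hf : Continuous f) {τ : ℝ} (hτ : 0 < τ) :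
    ∃ C : ℝ, 0 ≤ C ∧ ∀ b ∈ M, IsSelfAdjoint b → ‖b‖ ≤ 1 →
      ‖D.cm (cfc f b) ξ‖ ≤ C * ‖D.cm b ξ‖ + τ := by
  obtain ⟨q, hq⟩ := exists_polynomial_near_of_continuousOn (-1) 1 f hf.continuousOn (τ / 2)
    (by positivity)
  obtain ⟨C, hC, h⟩ := D.cm_poly q
  refine ⟨C, hC, fun b hb hsa h1 => ?_⟩
  rcases subsingleton_or_nontrivial (H →L[ℂ] H) with hB | hB
  · have : D.cm (cfc f b) ξ = 0 := by
      rw [Subsingleton.elim (cfc f b) 1, D.cm_one_xi]
    rw [this, norm_zero]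
    positivity
  have h2 : ‖cfc f b - Polynomial.aeval b q‖ ≤ τ / 2 := by
    have h3 : Polynomial.aeval b q = cfc (fun s : ℝ => q.eval s) b := by
      rw [cfc_polynomial q b hsa]
    rw [h3, ← cfc_sub f (fun s : ℝ => q.eval s) b hf.continuousOn q.continuous.continuousOn]
    apply norm_cfc_le (by positivity)
    intro s hs
    rw [Real.norm_eq_abs, abs_sub_comm]
    have h4 : ‖s‖ ≤ ‖b‖ := spectrum.norm_le_norm_of_mem hs
    rw [Real.norm_eq_abs] at h4
    have h5 := abs_le.1 (h4.trans h1)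
    exact (hq s ⟨h5.1, h5.2⟩).le
  have e : cfc f b = Polynomial.aeval b q + (cfc f b - Polynomial.aeval b q) := by abel
  rw [e, D.cm_add]
  refine (norm_add_le _ _).trans (add_le_add (h b hb h1) ?_)
  refine (D.norm_cm_le _ ξ).trans ?_
  rw [D.norm_xi]
  linarith

/-- **Polar parts.** -/
theorem exists_polar {κ τ : ℝ} (hκ : 0 < κ) (hκ1 : κ ≤ 1) (hτ : 0 < τ) :
    ∃ σ > 0, ∀ w T : H →L[ℂ] H, w ∈ M → Cmp.IsPr M T → ‖w‖ ≤ 1 →
      (∀ ζ, κ * ‖T ζ‖ ^ 2 ≤ ‖w (T ζ)‖ ^ 2) → ‖D.cm w ξ‖ ≤ σ → ‖D.cm T ξ‖ ≤ σ →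
      ∃ G ∈ M, star (w * T * G) * (w * T * G) = T ∧ ‖D.cm (w * T * G) ξ‖ ≤ τ := by
  set F : ℝ → ℝ := fun t => 1 / Real.sqrt (max t κ) with hF
  have hFc : Continuous F := by
    refine continuous_const.div ((Real.continuous_sqrt).comp (continuous_id.max continuous_const))
      fun t => ?_
    exact (Real.sqrt_pos.2 (lt_of_lt_of_le hκ (le_max_right _ _))).ne'
  obtain ⟨C, hC, hCb⟩ := D.cm_cfc hFc (τ := τ / 2) (by positivity)
  set K : ℝ := 1 / Real.sqrt κ with hK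
  have hK0 : 0 < K := by positivity
  refine ⟨τ / (2 * (5 * C + 2 * K + 1)), by positivity, fun w T hw hT hw1 hlow hcw hcT => ?_⟩
  set σ : ℝ := τ / (2 * (5 * C + 2 * K + 1)) with hσ
  have hTn : ∀ v : H, ‖T v‖ ≤ ‖v‖ := fun v => Gf.norm_pr_le hT.sa hT.idem v
  have hT1 : ‖T‖ ≤ 1 := ContinuousLinearMap.opNorm_le_bound _ zero_le_one fun v => by
    rw [one_mul]; exact hTn v
  set x : H →L[ℂ] H := w * T with hx
  have hxM : x ∈ M := mul_mem hw hT.mem
  set b : H →L[ℂ] H := star x * x + (κ : ℂ) • (1 - T) with hb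
  have h1TM : (1 : H →L[ℂ] H) - T ∈ M := sub_mem (one_mem M) hT.mem
  have hbM : b ∈ M := add_mem (mul_mem (star_mem hxM) hxM) (M.toStarSubalgebra.smul_mem h1TM _)
  have h1Ts : star ((1 : H →L[ℂ] H) - T) = 1 - T := by rw [star_sub, star_one, hT.sa]
  have h1Ti : ((1 : H →L[ℂ] H) - T) * (1 - T) = 1 - T := by
    rw [mul_sub, mul_one, sub_mul, one_mul, hT.idem, sub_self, sub_zero]
  have hbs : IsSelfAdjoint b := by
    show star b = b
    rw [hb, star_add, star_mul, star_star, star_smul, h1Ts]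
    congr 2
    exact Complex.conj_ofReal κ
  have hxT : x * T = x := by rw [hx, mul_assoc, hT.idem]
  have hTx : T * star x = star x := by
    have h2 := congrArg star hxT
    rwa [star_mul, hT.sa] at h2
  have hquad : ∀ v : H, (⟪v, b v⟫_ℂ).re = ‖w (T v)‖ ^ 2 + κ * ‖v - T v‖ ^ 2 := by
    intro v
    have h2 : b v = (star x * x) v + (κ : ℂ) • ((1 : H →L[ℂ] H) - T) v := rfl
    have h3 : ⟪v, ((1 : H →L[ℂ] H) - T) v⟫_ℂ = ((‖v - T v‖ ^ 2 : ℝ) : ℂ) := by
      have h5 := Cmp.inner_star_mul_self ((1 : H →L[ℂ] H) - T) v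
      rw [h1Ts, h1Ti] at h5
      rw [h5]
      push_cast
      rfl
    rw [h2, inner_add_right, inner_smul_right, h3, Cmp.inner_star_mul_self, ← Complex.ofReal_mul,
      Complex.add_re, Complex.ofReal_re]
    congr 1
    norm_cast
  have hpyth : ∀ v : H, ‖v‖ ^ 2 = ‖T v‖ ^ 2 + ‖v - T v‖ ^ 2 := by
    intro v
    have h2 : ⟪T v, v - T v⟫_ℂ = 0 := by
      have h3 : ⟪T v, v - T v⟫_ℂ = ⟪v, T (v - T v)⟫_ℂ := by
        rw [← hT.sa, BC.inner_star, hT.sa]
      have h4 : T (v - T v) = 0 := by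
        rw [map_sub, sub_eq_zero]
        exact (congrArg (fun S : H →L[ℂ] H => S v) hT.idem).symm
      rw [h3, h4, inner_zero_right]
    have h3 := norm_add_sq_eq_norm_sq_add_norm_sq_of_inner_eq_zero (T v) (v - T v) h2
    rw [add_sub_cancel] at h3
    simpa [sq] using h3
  have hlow' : ∀ v : H, κ * ‖v‖ ^ 2 ≤ (⟪v, b v⟫_ℂ).re := by
    intro v
    rw [hquad, hpyth v, mul_add]
    linarith [hlow v]
  have hup : ∀ v : H, (⟪v, b v⟫_ℂ).re ≤ ‖v‖ ^ 2 := by
    intro v
    rw [hquad, hpyth v]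
    have h2 : ‖w (T v)‖ ≤ ‖T v‖ := by
      have := w.le_opNorm (T v)
      have h3 := norm_nonneg (T v)
      nlinarith
    have h3 : ‖w (T v)‖ ^ 2 ≤ ‖T v‖ ^ 2 := pow_le_pow_left₀ (norm_nonneg _) h2 2
    have h4 : 0 ≤ ‖v - T v‖ ^ 2 := by positivity
    nlinarith
  have h0b : 0 ≤ b := pE_nonneg hbs fun v => le_trans (by positivity) (hlow' v)
  have hb1 : ‖b‖ ≤ 1 := by
    rw [CStarAlgebra.norm_le_one_iff_of_nonneg b h0b, ← sub_nonneg]
    refine pE_nonneg (by rw [star_sub, star_one]; congr 1) fun v => ?_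
    have h2 : ((1 : H →L[ℂ] H) - b) v = v - b v := rfl
    rw [h2, inner_sub_right, Complex.sub_re, pE_inner_self]
    linarith [hup v]
  have hle : algebraMap ℝ (H →L[ℂ] H) κ ≤ b := by
    rw [← sub_nonneg]
    have e : algebraMap ℝ (H →L[ℂ] H) κ = (κ : ℂ) • 1 := by
      rw [Algebra.algebraMap_eq_smul_one]
      ext v; simp
    rw [e]
    refine pE_nonneg ?_ fun v => ?_
    · rw [star_sub, star_smul, star_one, hbs.star_eq]
      congr 2
      exact Complex.conj_ofReal κ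
    · have h2 : (b - (κ : ℂ) • (1 : H →L[ℂ] H)) v = b v - (κ : ℂ) • v := rfl
      rw [h2, inner_sub_right, inner_smul_right, Complex.sub_re, Complex.re_ofReal_mul,
        pE_inner_self]
      linarith [hlow' v]
  have hspec : ∀ s ∈ spectrum ℝ b, κ ≤ s := (algebraMap_le_iff_le_spectrum hbs).1 hle
  set G : H →L[ℂ] H := cfc F b with hG
  have hGM : G ∈ M := Lay.cfc_mem hbM F
  have hGs : star G = G := (cfc_predicate F b : IsSelfAdjoint _).star_eq
  have hGbG : G * b * G = 1 := by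
    have e1 : cfc (fun t => F t * t * F t) b = G * b * G := by
      rw [cfc_mul (fun t => F t * t) F b (hFc.mul continuous_id).continuousOn hFc.continuousOn,
        cfc_mul F (fun t => t) b hFc.continuousOn continuous_id.continuousOn, cfc_id' ℝ b hbs]
    rw [← e1]
    have e2 : cfc (fun t => F t * t * F t) b = cfc (fun _ => (1 : ℝ)) b := by
      refine cfc_congr fun t ht => ?_
      have h2 := hspec t ht
      have h3 : 0 < t := lt_of_lt_of_le hκ h2
      show 1 / Real.sqrt (max t κ) * t * (1 / Real.sqrt (max t κ)) = 1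
      rw [max_eq_left h2]
      have h4 := Real.mul_self_sqrt h3.le
      have h5 : Real.sqrt t ≠ 0 := (Real.sqrt_pos.2 h3).ne'
      field_simp
      nlinarith
    rw [e2, cfc_const_one ℝ b]
  have hcommb : G * b = b * G := ((Commute.refl b).cfc_real F).eq
  have hTb : T * b = b * T := by
    rw [hb, mul_add, add_mul, ← mul_assoc, hTx, mul_assoc, hxT, mul_smul_comm, smul_mul_assoc,
      mul_sub, sub_mul, mul_one, one_mul]
  have hcommT : G * T = T * G := ((show Commute b T from hTb.symm).cfc_real F).eq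
  have hκT : (1 - T) * b = (κ : ℂ) • (1 - T) := by
    rw [hb, mul_add, ← mul_assoc, sub_mul, one_mul, hTx, sub_self, zero_mul, zero_add,
      mul_smul_comm, h1Ti]
  have hkey : (κ : ℂ) • ((1 - T) * (G * G)) = 1 - T := by
    have h2 : (1 - T) * (G * b * G) = 1 - T := by rw [hGbG, mul_one]
    rw [hcommb, mul_assoc, ← mul_assoc, hκT, smul_mul_assoc] at h2
    exact h2
  refine ⟨G, hGM, ?_, ?_⟩
  · show star (x * G) * (x * G) = T
    have e1 : star (x * G) * (x * G) = G * (b - (κ : ℂ) • (1 - T)) * G := by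
      rw [star_mul, hGs, hb]
      rw [add_sub_cancel_right]
      simp only [mul_assoc]
    have e2 : G * (1 - T) * G = (1 - T) * (G * G) := by
      rw [mul_sub, mul_one, hcommT, ← mul_assoc, sub_mul, sub_mul, one_mul, sub_mul]
    rw [e1, mul_sub, sub_mul, hGbG, mul_smul_comm, smul_mul_assoc, e2, hkey]
    abel
  · have hG1 : ‖G‖ ≤ K := by
      apply norm_cfc_le hK0.le
      intro t ht
      have h2 := hspec t ht
      show ‖1 / Real.sqrt (max t κ)‖ ≤ 1 / Real.sqrt κ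
      rw [Real.norm_of_nonneg (by positivity)]
      exact one_div_le_one_div_of_le (Real.sqrt_pos.2 hκ)
        (Real.sqrt_le_sqrt (le_max_right _ _))
    have hx1 : ‖x‖ ≤ 1 := by
      calc ‖w * T‖ ≤ ‖w‖ * ‖T‖ := norm_mul_le _ _
        _ ≤ 1 * 1 := mul_le_mul hw1 hT1 (norm_nonneg _) zero_le_one
        _ = 1 := one_mul _
    have hxs1 : ‖star x‖ ≤ 1 := by rwa [norm_star]
    have hcx : ‖D.cm x ξ‖ ≤ 2 * σ := by
      have h2 := D.cm_mul_le hw hT.mem hw1 hT1
      linarith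
    have hcb : ‖D.cm b ξ‖ ≤ 5 * σ := by
      rw [hb, D.cm_add, D.cm_smul]
      refine (norm_add_le _ _).trans ?_
      have h2 := D.cm_mul_le (star_mem hxM) hxM hxs1 hx1
      rw [D.norm_cm_star_xi] at h2
      have h3 : D.cm (1 - T) ξ = -D.cm T ξ := by
        rw [D.cm_sub, D.cm_one_xi, zero_sub]
      rw [norm_smul, h3, norm_neg, Complex.norm_real, Real.norm_of_nonneg hκ.le]
      have h4 : κ * ‖D.cm T ξ‖ ≤ 1 * σ := mul_le_mul hκ1 hcT (norm_nonneg _) zero_le_one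
      linarith
    have hcG : ‖D.cm G ξ‖ ≤ C * (5 * σ) + τ / 2 :=
      (hCb b hbM hbs hb1).trans (add_le_add (mul_le_mul_of_nonneg_left hcb hC) le_rfl)
    have h2 := D.cm_mul_le hxM hGM hx1 hG1
    have hσ' : (5 * C + 2 * K + 1) * σ = τ / 2 := by
      rw [hσ]; field_simp
    have hσ0 : 0 < σ := by rw [hσ]; positivity
    have h3 : K * ‖D.cm x ξ‖ ≤ K * (2 * σ) := mul_le_mul_of_nonneg_left hcx hK0.le
    show ‖D.cm (x * G) ξ‖ ≤ τ
    nlinarith

end ModData

end Vale.Agent.P132
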