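import Vale.Agent.P132.N723.Comp

/-!
# P132: the sequence of matrix units
-/

open Filter Topology
open scoped ComplexConjugate InnerProductSpace

namespace Vale.Agent.P132

universe u

variable {H : Type u} [NormedAddCommGroup H] [InnerProductSpace ℂ H] [CompleteSpace H]

/-- matrix units with small averages, for all faithful normal states -/
def HMU (M : VonNeumannAlgebra H) : Prop :=
  ∀ φ : (H →L[ℂ] H) → ℂ, IsNormalState M φ → IsFaithful M φ → ∀ x : ℕ → (H →L[ℂ] H),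
    (∀ j, x j ∈ M) → (∀ j, ‖x j‖ ≤ 1) → ∀ (k : ℕ) (δ : ℝ), 0 < δ →
    ∃ (n : ℕ) (e : Fin n → Fin n → (H →L[ℂ] H)), MU M e ∧
      (∀ y ∈ M, ‖φ (mavg e y) - φ y‖ ≤ δ * ‖y‖) ∧
      ∀ j < k, (φ (star (mavg e (x j) - φ (x j) • 1) * (mavg e (x j) - φ (x j) • 1))).re ≤ δ

/-- the linear span of the matrix units -/
def spn {ι : Type} (a : ι → (H →L[ℂ] H)) : Submodule ℂ (H →L[ℂ] H) :=
  Submodule.span ℂ (Set.range fun p : ι × ι => cmu a p.1 p.2)

theorem cstep {M : VonNeumannAlgebra H} (hM : IsTypeIIIOneFactor M) (hmu : HMU M)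
    {φ : (H →L[ℂ] H) → ℂ} (hφ : IsNormalState M φ) (hf : IsFaithful M φ)
    {x : ℕ → (H →L[ℂ] H)} (hx : ∀ j, x j ∈ M) (hx1 : ∀ j, ‖x j‖ ≤ 1) (k : ℕ) {δ : ℝ}
    (hδ : 0 < δ) {n : ℕ} {a : Fin n → (H →L[ℂ] H)} (ha : CF M a) :
    ∃ (n' : ℕ) (a' : Fin n' → (H →L[ℂ] H)), CF M a' ∧ (∀ i j, cmu a i j ∈ spn a') ∧
      (∀ y ∈ M, ‖φ (mavg (cmu a') y) - φ (mavg (cmu a) y)‖ ≤ δ * ‖y‖) ∧
      ∀ j < k, (φ (star (mavg (cmu a') (x j) - φ (mavg (cmu a) (x j)) • 1) *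
        (mavg (cmu a') (x j) - φ (mavg (cmu a) (x j)) • 1))).re ≤ δ := by
  have hne : Nonempty (Fin n) := by
    by_contra h0
    rw [not_nonempty_iff] at h0
    have h1 := ha.sum
    rw [Finset.univ_eq_empty, Finset.sum_empty] at h1
    have h2 := state_one hφ
    rw [← h1, state_zero hφ] at h2
    exact zero_ne_one h2
  obtain ⟨m, e, he, h1, h2⟩ := hmu _ (th_state ha hφ) (th_faithful ha hf)
    (fun j => cex a (x j)) (fun j => cex_mem ha (hx j))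
    (fun j => (cex_norm_le ha _).trans (hx1 j)) k δ hδ
  have hme : Nonempty (Fin m) := by
    by_contra h0
    rw [not_nonempty_iff] at h0
    have h1 := he.sum
    rw [Finset.univ_eq_empty, Finset.sum_empty] at h1
    have h2 := state_one hφ
    rw [← h1, state_zero hφ] at h2
    exact zero_ne_one h2
  obtain ⟨b, hb, hbe⟩ := he.exists_cf hM hφ hf
  have hee : e = cmu b := by
    funext i j
    exact hbe i j
  subst hee
  set σ : Fin (n * m) ≃ Fin n × Fin m := finProdFinEquiv.symm with hσ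
  set c : Fin n × Fin m → (H →L[ℂ] H) := fun p => a p.1 * b p.2 with hc
  have hcf : CF M c := ha.comp hb
  have hmav : ∀ y, mavg (cmu fun k => c (σ k)) y = th a (mavg (cmu b) (cex a y)) := by
    intro y
    rw [mavg_reindex c σ, hc, mavg_comp]
  refine ⟨n * m, fun k => c (σ k), hcf.reindex σ, fun i j => ?_, fun y hy => ?_, fun j hj => ?_⟩
  · have e1 : cmu a i j = ∑ k, cmu (fun k => c (σ k)) (σ.symm (i, k)) (σ.symm (j, k)) := by
      have e2 : ∀ k ∈ (Finset.univ : Finset (Fin m)),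
          cmu (fun k => c (σ k)) (σ.symm (i, k)) (σ.symm (j, k)) =
            a i * (b k * star (b k)) * star (a j) := by
        intro k _
        rw [cmu, Equiv.apply_symm_apply, Equiv.apply_symm_apply, hc]
        show a i * b k * star (a j * b k) = _
        rw [star_mul]
        simp only [mul_assoc]
      rw [Finset.sum_congr rfl e2, ← Finset.sum_mul, ← Finset.mul_sum, hb.sum, mul_one]
      rfl
    rw [e1]
    exact Submodule.sum_mem _ fun k _ => Submodule.subset_span ⟨(σ.symm (i, k), σ.symm (j, k)), rfl⟩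
  · rw [hmav, mavg_eq_th (a := a)]
    have h3 := h1 (cex a y) (cex_mem ha hy)
    exact h3.trans (mul_le_mul_of_nonneg_left (cex_norm_le ha y) hδ.le)
  · rw [hmav, mavg_eq_th (a := a)]
    have h3 := h2 j hj
    have e1 : th a (mavg (cmu b) (cex a (x j))) - φ (th a (cex a (x j))) • 1 =
        th a (mavg (cmu b) (cex a (x j)) - φ (th a (cex a (x j))) • 1) := by
      rw [th_sub, th_smul, th_one ha]
    rw [e1, ← th_star, ← th_mul ha]
    exact h3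

/-- the sequence -/
structure CSeq (M : VonNeumannAlgebra H) (φ : (H →L[ℂ] H) → ℂ) (ε : ℝ) (x : ℕ → H →L[ℂ] H)
    (n : ℕ → ℕ) (a : ∀ k, Fin (n k) → (H →L[ℂ] H)) : Prop where
  cf : ∀ k, CF M (a k)
  zero : ∀ y, mavg (cmu (a 0)) y = y
  ref : ∀ k i j, cmu (a k) i j ∈ spn (a (k + 1))
  close : ∀ k, ∀ y ∈ M, ‖φ (mavg (cmu (a (k + 1))) y) - φ (mavg (cmu (a k)) y)‖ ≤
    ε / 2 ^ (k + 1) * ‖y‖
  conv : ∀ k, ∀ j < k, (φ (star (mavg (cmu (a (k + 1))) (x j) - φ (mavg (cmu (a k)) (x j)) • 1) *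
    (mavg (cmu (a (k + 1))) (x j) - φ (mavg (cmu (a k)) (x j)) • 1))).re ≤ ε / 2 ^ (k + 1)

theorem exists_cseq {M : VonNeumannAlgebra H} (hM : IsTypeIIIOneFactor M) (hmu : HMU M)
    {φ : (H →L[ℂ] H) → ℂ} (hφ : IsNormalState M φ) (hf : IsFaithful M φ)
    {x : ℕ → (H →L[ℂ] H)} (hx : ∀ j, x j ∈ M) (hx1 : ∀ j, ‖x j‖ ≤ 1) {ε : ℝ} (hε : 0 < ε) :
    ∃ (n : ℕ → ℕ) (a : ∀ k, Fin (n k) → (H →L[ℂ] H)), CSeq M φ ε x n a := by
  have h0 : CF M (fun _ : Fin 1 => (1 : H →L[ℂ] H)) := by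
    refine ⟨fun _ => one_mem M, fun i j => ?_, ?_⟩
    · rw [if_pos (Subsingleton.elim i j), star_one, one_mul]
    · simp
  have hstep : ∀ (k : ℕ) (p : {p : Σ n : ℕ, (Fin n → (H →L[ℂ] H)) // CF M p.2}),
      ∃ q : {p : Σ n : ℕ, (Fin n → (H →L[ℂ] H)) // CF M p.2},
        (∀ i j, cmu p.1.2 i j ∈ spn q.1.2) ∧
        (∀ y ∈ M, ‖φ (mavg (cmu q.1.2) y) - φ (mavg (cmu p.1.2) y)‖ ≤ ε / 2 ^ (k + 1) * ‖y‖) ∧
        ∀ j < k, (φ (star (mavg (cmu q.1.2) (x j) - φ (mavg (cmu p.1.2) (x j)) • 1) *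
          (mavg (cmu q.1.2) (x j) - φ (mavg (cmu p.1.2) (x j)) • 1))).re ≤ ε / 2 ^ (k + 1) := by
    rintro k ⟨⟨n, a⟩, ha⟩
    obtain ⟨n', a', h1, h2, h3, h4⟩ := cstep hM hmu hφ hf hx hx1 k
      (δ := ε / 2 ^ (k + 1)) (by positivity) ha
    exact ⟨⟨⟨n', a'⟩, h1⟩, h2, h3, h4⟩
  choose F hF1 hF2 hF3 using hstep
  let S : ℕ → {p : Σ n : ℕ, (Fin n → (H →L[ℂ] H)) // CF M p.2} :=
    fun k => Nat.rec ⟨⟨1, fun _ => 1⟩, h0⟩ (fun k p => F k p) k
  refine ⟨fun k => (S k).1.1, fun k => (S k).1.2, fun k => (S k).2, fun y => ?_,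
    fun k => hF1 k (S k), fun k => hF2 k (S k), fun k => hF3 k (S k)⟩
  show mavg (cmu (fun _ : Fin 1 => (1 : H →L[ℂ] H))) y = y
  rw [mavg]
  simp [cmu]

end Vale.Agent.P132
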