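import Vale.Agent.P132.N723.Basic
import Vale.Agent.P132.H8.Nf

/-!
# P132: spectral cuts commuting with a projection
-/

open Filter Topology
open scoped ComplexConjugate InnerProductSpace BoundedContinuousFunction

namespace Vale.Agent.P132

universe u

variable {H : Type u} [NormedAddCommGroup H] [InnerProductSpace ℂ H] [CompleteSpace H]

namespace ModData

variable {M : VonNeumannAlgebra H} {ξ : H} (D : ModData M ξ)

/-- **Spectral cuts.** -/
theorem exists_spec_cut_comm {p : H →L[ℂ] H} (hp : star p = p) {μ η : ℝ} (hμ : 0 < μ)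
    (hη : 0 < η) :
    ∃ δ > 0, ∀ t ∈ M, p * t = t * p → 0 ≤ t → ‖t‖ ≤ 1 → ‖D.cm t ξ‖ ≤ δ →
      ∃ (n : ℕ) (e : ℕ → H →L[ℂ] H) (c : ℕ → ℝ), PU M n e ∧ (∀ l, 0 ≤ c l ∧ c l ≤ 1) ∧
        (∀ l, p * e l = e l * p) ∧ ‖t - ∑ l ∈ Finset.range n, (c l : ℂ) • e l‖ ≤ μ ∧
        ∑ l ∈ Finset.range n, ‖D.cm (e l) ξ‖ ^ 2 ≤ η := by
  obtain ⟨m, hm⟩ := exists_nat_gt (18 / η)
  have hm0 : (0 : ℝ) < m := lt_trans (by positivity) hm
  have hmN : 0 < m := by exact_mod_cast hm0
  have hmη : 18 / m ≤ η := by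
    rw [div_le_iff₀ hm0]
    rw [div_lt_iff₀ hη] at hm
    linarith
  set s : ℝ := μ / (m + 1) with hs
  have hs0 : 0 < s := by positivity
  have hsμ : s * (m + 1) = μ := by rw [hs]; field_simp
  set L : ℕ := ⌈1 / s⌉₊ with hL
  have hL1 : 1 / s ≤ L := Nat.le_ceil _
  have hL2 : (L : ℝ) < 1 / s + 1 := Nat.ceil_lt_add_one (by positivity)
  have hLs : 1 ≤ L * s := by
    rwa [div_le_iff₀ hs0] at hL1
  have hLs' : L * s < 1 + s := by
    have : (L : ℝ) * s < (1 / s + 1) * s := by gcongr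
    have e : (1 / s + 1) * s = 1 + s := by field_simp
    linarith
  have hLN : 0 < L := by
    rcases Nat.eq_zero_or_pos L with h | h
    · rw [h] at hLs; simp at hLs; linarith
    · exact h
  refine ⟨s, hs0, fun t ht htp h0 h1 hcm => ?_⟩
  have hSp : ∀ x ∈ ({p} : Set (H →L[ℂ] H)), star x = x := by
    rintro x rfl
    exact hp
  have htM0 : t ∈ relComm M {p} hSp := mem_relComm.2 ⟨ht, by rintro x rfl; exact htp⟩
  obtain ⟨T, hpr0, hT0, hTL, hTn, r, hrM0, hr, htr⟩ :=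
    exists_cuts htM0 h0 hs0 hLN (h1.trans hLs)
  have hpr : ∀ j, Cmp.IsPr M (T j) := fun j =>
    ⟨(mem_relComm.1 (hpr0 j).mem).1, (hpr0 j).sa, (hpr0 j).idem⟩
  have hTp : ∀ j, p * T j = T j * p := fun j => (mem_relComm.1 (hpr0 j).mem).2 p rfl
  have hrM : r ∈ M := (mem_relComm.1 hrM0).1
  have hpu := nested_pu hpr hT0 hTL hTn
  set e : ℕ → H →L[ℂ] H := fun i => T i - T (i + 1) with he
  set A : H →L[ℂ] H := ∑ i ∈ Finset.range L, (((i : ℝ) : ℂ)) • e i with hA
  have hAT : ∑ j ∈ Finset.range L, T (j + 1) = A := by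
    rw [abel_cuts, hTL L le_rfl, smul_zero, add_zero]
  rw [hAT] at htr
  -- the commutator with `A`
  have hcA : ‖D.cm A ξ‖ ≤ 3 := by
    have h2 : (s : ℂ) • D.cm A ξ = D.cm t ξ - D.cm r ξ := by
      rw [← D.cm_smul, htr, D.cm_add]
      abel
    have h3 : s * ‖D.cm A ξ‖ ≤ s * 3 := by
      calc s * ‖D.cm A ξ‖ = ‖(s : ℂ) • D.cm A ξ‖ := by
            rw [norm_smul, Complex.norm_real, Real.norm_of_nonneg hs0.le]
        _ ≤ ‖D.cm t ξ‖ + ‖D.cm r ξ‖ := by rw [h2]; exact norm_sub_le _ _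
        _ ≤ s + 2 * s * 1 := by
            refine add_le_add hcm ((D.norm_cm_le r ξ).trans ?_)
            rw [D.norm_xi]
            gcongr
        _ = s * 3 := by ring
    exact le_of_mul_le_mul_left h3 hs0
  have hS : ∑ i ∈ Finset.range L, ∑ k ∈ Finset.range L, ((i : ℝ) - k) ^ 2 * D.jw e ξ i k ≤ 9 := by
    have h2 := D.norm_cm_op hpu (fun i => (i : ℝ)) ξ
    rw [← h2]
    have h3 : ‖D.cm A ξ‖ ^ 2 ≤ 3 ^ 2 := pow_le_pow_left₀ (norm_nonneg _) hcA 2
    calc _ ≤ (3 : ℝ) ^ 2 := h3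
      _ = 9 := by norm_num
  -- the pigeonhole
  obtain ⟨a, ham, ha⟩ : ∃ a ∈ Finset.range m, ∑ i ∈ Finset.range L, ∑ k ∈ Finset.range L,
      (if (i + a) / m = (k + a) / m then (0 : ℝ) else 1) * D.jw e ξ i k ≤ 9 / m := by
    refine Finset.exists_le_of_sum_le ⟨0, Finset.mem_range.2 hmN⟩ ?_
    rw [Finset.sum_const, Finset.card_range, nsmul_eq_mul, mul_div_cancel₀ _ hm0.ne']
    refine le_trans ?_ hS
    rw [Finset.sum_comm]
    refine Finset.sum_le_sum fun i _ => ?_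
    rw [Finset.sum_comm]
    refine Finset.sum_le_sum fun k _ => ?_
    rw [← Finset.sum_mul]
    exact mul_le_mul_of_nonneg_right (card_div_ne hmN i k) (D.jw_nonneg e ξ i k)
  set f : ℕ → ℕ := fun i => (i + a) / m with hf
  have ham' : a < m := Finset.mem_range.1 ham
  have hfL : ∀ i < L, f i < L := by
    intro i hi
    have h2 : (i + a) / m ≤ i := by
      have h3 : i + a < m * (i + 1) := by nlinarith
      have := (Nat.div_lt_iff_lt_mul hmN).2 (by rw [mul_comm]; exact h3 : i + a < (i + 1) * m)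
      omega
    exact lt_of_le_of_lt h2 hi
  have hq := hpu.coarsen f hfL
  set q : ℕ → H →L[ℂ] H := fun l =>
    ∑ i ∈ Finset.range L, ((if f i = l then (1 : ℝ) else 0 : ℝ) : ℂ) • e i with hqdef
  set c : ℕ → ℝ := fun l => max 0 (min 1 (s * (m * l - a))) with hc
  refine ⟨L, q, c, hq, fun l => ⟨le_max_left _ _, max_le zero_le_one (min_le_left _ _)⟩, ?_, ?_, ?_⟩
  · intro l
    rw [hqdef]
    show p * ∑ i ∈ Finset.range L, ((if f i = l then (1 : ℝ) else 0 : ℝ) : ℂ) • e i = _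
    rw [Finset.mul_sum, Finset.sum_mul]
    refine Finset.sum_congr rfl fun i _ => ?_
    rw [mul_smul_comm, smul_mul_assoc, he]
    show _ • (p * (T i - T (i + 1))) = _ • ((T i - T (i + 1)) * p)
    rw [mul_sub, sub_mul, hTp, hTp]
  · rw [hqdef]
    rw [PU.coarsen_sum f hfL c]
    have h2 : t - ∑ i ∈ Finset.range L, (c (f i) : ℂ) • e i =
        ∑ i ∈ Finset.range L, ((s * i - c (f i) : ℝ) : ℂ) • e i + r := by
      have h3 : t = (s : ℂ) • A + r := htr
      rw [h3, hA, Finset.smul_sum]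
      have h4 : ∀ i : ℕ, ((s * i - c (f i) : ℝ) : ℂ) • e i =
          (s : ℂ) • (((i : ℝ) : ℂ) • e i) - (c (f i) : ℂ) • e i := by
        intro i
        push_cast
        module
      simp only [h4, Finset.sum_sub_distrib]
      abel
    rw [h2]
    refine (norm_add_le _ _).trans ?_
    have h5 : ‖∑ i ∈ Finset.range L, ((s * i - c (f i) : ℝ) : ℂ) • e i‖ ≤ s * m := by
      refine hpu.norm_op_le (fun i => s * i - c (f i)) (by positivity) fun i hi => ?_
      have hiL : i < L := Finset.mem_range.1 hi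
      have h6 : m * f i ≤ i + a := Nat.mul_div_le _ _
      have h7 : i + a < m * f i + m := by
        have := Nat.lt_mul_div_succ (i + a) hmN
        have e : m * ((i + a) / m + 1) = m * f i + m := by rw [hf]; ring
        omega
      have h8 : (m : ℝ) * f i ≤ i + a := by exact_mod_cast h6
      have h9 : (i : ℝ) + a ≤ m * f i + m := by exact_mod_cast h7.le
      have h10 : s * i ≤ 1 := by
        have h11 : (i : ℝ) + 1 ≤ L := by exact_mod_cast hiL
        nlinarith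
      have h12 : 0 ≤ s * (i : ℝ) := by positivity
      have h13 : s * (m * (f i : ℝ) - a) ≤ s * i := by
        apply mul_le_mul_of_nonneg_left _ hs0.le; linarith
      have h14 : s * i - s * m ≤ s * (m * (f i : ℝ) - a) := by
        rw [← mul_sub]; apply mul_le_mul_of_nonneg_left _ hs0.le; linarith
      have hsm : 0 ≤ s * m := by positivity
      show |s * (i : ℝ) - max 0 (min 1 (s * (m * (f i : ℝ) - a)))| ≤ s * m
      rw [abs_le]
      constructor
      · have : max 0 (min 1 (s * (m * (f i : ℝ) - a))) ≤ s * i :=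
          max_le h12 ((min_le_right _ _).trans h13)
        linarith
      · rcases le_total (s * (m * (f i : ℝ) - a)) 1 with h15 | h15
        · rw [min_eq_right h15]
          have := le_max_right 0 (s * (m * (f i : ℝ) - a))
          linarith
        · rw [min_eq_left h15, max_eq_right zero_le_one]
          linarith
    calc _ ≤ s * m + s := add_le_add h5 hr
      _ = μ := by rw [← hsμ]; ring
  · have h2 : ∀ l, ‖D.cm (q l) ξ‖ ^ 2 = ∑ i ∈ Finset.range L, ∑ k ∈ Finset.range L,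
        ((if f i = l then (1 : ℝ) else 0) - (if f k = l then (1 : ℝ) else 0)) ^ 2 *
          D.jw e ξ i k := fun l =>
      D.norm_cm_op hpu (fun i => if f i = l then (1 : ℝ) else 0) ξ
    simp only [h2]
    rw [Finset.sum_comm]
    have h3 : ∀ i ∈ Finset.range L, ∑ l ∈ Finset.range L, ∑ k ∈ Finset.range L,
        ((if f i = l then (1 : ℝ) else 0) - (if f k = l then (1 : ℝ) else 0)) ^ 2 *
          D.jw e ξ i k ≤ ∑ k ∈ Finset.range L,
          2 * ((if f i = f k then (0 : ℝ) else 1) * D.jw e ξ i k) := by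
      intro i _
      rw [Finset.sum_comm]
      refine Finset.sum_le_sum fun k _ => ?_
      rw [← Finset.sum_mul, ← mul_assoc]
      exact mul_le_mul_of_nonneg_right (sum_ind_sq L (f i) (f k)) (D.jw_nonneg e ξ i k)
    refine (Finset.sum_le_sum h3).trans ?_
    simp only [← Finset.mul_sum]
    calc _ ≤ 2 * (9 / (m : ℝ)) := by
          apply mul_le_mul_of_nonneg_left ha (by norm_num)
      _ = 18 / m := by ring
      _ ≤ η := hmη

/-- one spectral cut below an invariant projection `q` -/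
theorem exists_one_cut {q : H →L[ℂ] H} (hq : Cmp.IsPr M q) (hqc : D.cm q ξ = 0) {s μ η : ℝ}
    (hs : 0 < s) (hμ : 0 < μ) (hη : 0 < η) :
    ∃ δ > 0, ∀ t ∈ M, q * t = t → t * q = t → 0 ≤ t → ‖t‖ ≤ 1 → ‖D.cm t ξ‖ ≤ δ →
      ∃ T, Cmp.IsPr M T ∧ q * T = T ∧ T * q = T ∧ ‖D.cm T ξ‖ ≤ η ∧
        (∀ ζ, (s - μ) * ‖T ζ‖ ^ 2 ≤ (⟪T ζ, t (T ζ)⟫_ℂ).re) ∧
        (⟪ξ, t ξ⟫_ℂ).re ≤ ‖T ξ‖ ^ 2 + s + μ := by
  obtain ⟨δ, hδ, hcut⟩ := D.exists_spec_cut_comm hq.sa (η := η ^ 2) hμ (by positivity)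
  refine ⟨δ, hδ, fun t ht hqt htq h0 h1 hcm => ?_⟩
  obtain ⟨n, e, c, hpu, hc, hcomm, hg, hsm⟩ := hcut t ht (hqt.trans htq.symm) h0 h1 hcm
  set χ : ℕ → ℝ := fun l => if s ≤ c l then 1 else 0 with hχ
  have hχ01 : ∀ l, χ l = 0 ∨ χ l = 1 := by
    intro l
    by_cases h : s ≤ c l
    · right; simp [hχ, h]
    · left; simp [hχ, h]
  set T0 : H →L[ℂ] H := ∑ l ∈ Finset.range n, (χ l : ℂ) • e l with hT0
  have hT0M : T0 ∈ M := hpu.op_mem _ _
  have hT0s : star T0 = T0 := by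
    rw [hT0, star_sum]
    refine Finset.sum_congr rfl fun l _ => ?_
    rw [star_smul, (hpu.pr l).sa]
    congr 1
    exact Complex.conj_ofReal _
  have hT0i : T0 * T0 = T0 := by
    rw [hT0, hpu.op_mul_op]
    refine Finset.sum_congr rfl fun l _ => ?_
    congr 1
    rcases hχ01 l with h | h <;> simp [h]
  have hT0q : q * T0 = T0 * q := by
    rw [hT0, Finset.mul_sum, Finset.sum_mul]
    refine Finset.sum_congr rfl fun l _ => ?_
    rw [mul_smul_comm, smul_mul_assoc, hcomm]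
  have hT0c : ‖D.cm T0 ξ‖ ^ 2 ≤ η ^ 2 := by
    refine le_trans ?_ hsm
    have h2 : ∀ l ∈ Finset.range n, ‖D.cm (e l) ξ‖ ^ 2 = ∑ i ∈ Finset.range n,
        ∑ k ∈ Finset.range n, ((if i = l then (1 : ℝ) else 0) - (if k = l then (1 : ℝ) else 0)) ^ 2 *
          D.jw e ξ i k := by
      intro l hl
      rw [← D.norm_cm_op hpu (fun i => if i = l then (1 : ℝ) else 0) ξ]
      congr 3
      rw [Finset.sum_eq_single l]
      · simp
      · intro j _ hj
        simp [hj]
      · intro h; exact absurd hl h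
    rw [Finset.sum_congr rfl h2, hT0, D.norm_cm_op hpu χ ξ]
    conv_rhs => rw [Finset.sum_comm]
    refine Finset.sum_le_sum fun i hi => ?_
    conv_rhs => rw [Finset.sum_comm]
    refine Finset.sum_le_sum fun k _ => ?_
    rw [← Finset.sum_mul]
    refine mul_le_mul_of_nonneg_right ?_ (D.jw_nonneg e ξ i k)
    by_cases hik : i = k
    · rw [hik, sub_self]
      exact le_trans (by norm_num) (Finset.sum_nonneg fun l _ => sq_nonneg _)
    · have h3 : (χ i - χ k) ^ 2 ≤ 1 := by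
        rcases hχ01 i with h | h <;> rcases hχ01 k with h' | h' <;> rw [h, h'] <;> norm_num
      refine h3.trans ?_
      have h4 := Finset.single_le_sum (f := fun l =>
        ((if i = l then (1 : ℝ) else 0) - (if k = l then (1 : ℝ) else 0)) ^ 2)
        (fun l _ => sq_nonneg _) hi
      have hki : ¬ k = i := fun h => hik h.symm
      simpa [hki] using h4
  set r : H →L[ℂ] H := t - ∑ l ∈ Finset.range n, (c l : ℂ) • e l with hr
  have hquad : ∀ v : H, (⟪v, t v⟫_ℂ).re = ∑ l ∈ Finset.range n, c l * ‖e l v‖ ^ 2 +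
      (⟪v, r v⟫_ℂ).re := by
    intro v
    have h2 : t = ∑ l ∈ Finset.range n, (c l : ℂ) • e l + r := by rw [hr]; abel
    have h3 : t v = ∑ l ∈ Finset.range n, (c l : ℂ) • e l v + r v := by
      conv_lhs => rw [h2]
      rw [add_apply, sum_apply]
      rfl
    rw [h3, inner_add_right, inner_sum, Complex.add_re, Complex.re_sum]
    congr 1
    refine Finset.sum_congr rfl fun l _ => ?_
    have h4 : ⟪v, e l v⟫_ℂ = ((‖e l v‖ ^ 2 : ℝ) : ℂ) := by
      have h5 := Cmp.inner_star_mul_self (e l) v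
      rw [(hpu.pr l).sa, (hpu.pr l).idem] at h5
      rw [h5]; push_cast; rfl
    rw [inner_smul_right, h4, ← Complex.ofReal_mul, Complex.ofReal_re]
  have hrq : ∀ v : H, |(⟪v, r v⟫_ℂ).re| ≤ μ * ‖v‖ ^ 2 := by
    intro v
    refine (Complex.abs_re_le_norm _).trans ((norm_inner_le_norm _ _).trans ?_)
    have h2 := (r.le_opNorm v).trans (mul_le_mul_of_nonneg_right hg (norm_nonneg v))
    calc ‖v‖ * ‖r v‖ ≤ ‖v‖ * (μ * ‖v‖) := mul_le_mul_of_nonneg_left h2 (norm_nonneg v)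
      _ = μ * ‖v‖ ^ 2 := by ring
  have hqn : ∀ v : H, ‖q v‖ ≤ ‖v‖ := fun v => Gf.norm_pr_le hq.sa hq.idem v
  have hTpr : Cmp.IsPr M (T0 * q) := by
    refine ⟨mul_mem hT0M hq.mem, by rw [star_mul, hT0s, hq.sa, hT0q], ?_⟩
    rw [mul_assoc, ← mul_assoc q T0 q, hT0q, mul_assoc T0 q q, hq.idem, ← mul_assoc, hT0i]
  have hqT : q * (T0 * q) = T0 * q := by
    rw [← mul_assoc, hT0q, mul_assoc, hq.idem]
  refine ⟨T0 * q, hTpr, hqT, by rw [mul_assoc, hq.idem], ?_, ?_, ?_⟩
  · rw [D.cm_mul' hT0M hq.mem, hqc, map_zero, zero_add]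
    have h2 : ‖D.Rm q‖ ≤ 1 := (D.norm_Rm_le q).trans
      (ContinuousLinearMap.opNorm_le_bound _ zero_le_one fun v => by
        rw [one_mul]; exact hqn v)
    have h3 : ‖D.cm T0 ξ‖ ≤ η := (pow_le_pow_iff_left₀ (norm_nonneg _) hη.le two_ne_zero).1 hT0c
    calc ‖D.Rm q (D.cm T0 ξ)‖ ≤ ‖D.Rm q‖ * ‖D.cm T0 ξ‖ := (D.Rm q).le_opNorm _
      _ ≤ 1 * η := mul_le_mul h2 h3 (norm_nonneg _) zero_le_one
      _ = η := one_mul _
  · intro ζ
    set v : H := (T0 * q) ζ with hv
    have hT0v : T0 v = v := by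
      have h2 : T0 * (T0 * q) = T0 * q := by rw [← mul_assoc, hT0i]
      exact congrArg (fun S : H →L[ℂ] H => S ζ) h2
    have hel : ∀ l ∈ Finset.range n, e l v = (χ l : ℂ) • e l v := by
      intro l hl
      have h2 := congrArg (fun S : H →L[ℂ] H => S v) (hpu.mul_op (fun l => (χ l : ℂ)) hl)
      have h3 : e l (T0 v) = (χ l : ℂ) • e l v := h2
      rwa [hT0v] at h3
    have h2 : s * ‖v‖ ^ 2 ≤ ∑ l ∈ Finset.range n, c l * ‖e l v‖ ^ 2 := by
      rw [hpu.norm_sq v, Finset.mul_sum]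
      refine Finset.sum_le_sum fun l hl => ?_
      by_cases h : s ≤ c l
      · exact mul_le_mul_of_nonneg_right h (by positivity)
      · have h3 : χ l = 0 := by simp [hχ, h]
        have h4 := hel l hl
        rw [h3] at h4
        simp only [Complex.ofReal_zero, zero_smul] at h4
        rw [h4]; simp
    have h3 := hrq v
    rw [abs_le] at h3
    rw [hquad v]
    linarith [h3.1]
  · have h2 : (⟪ξ, t ξ⟫_ℂ).re = (⟪q ξ, t (q ξ)⟫_ℂ).re := by
      have h3 : t ξ = q (t (q ξ)) := by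
        have h4 : t = q * (t * q) := by rw [htq, hqt]
        conv_lhs => rw [h4]
        rfl
      rw [h3]
      conv_lhs => rw [← hq.sa, BC.inner_star']
      rw [hq.sa]
    rw [h2, hquad (q ξ)]
    have h3 := hrq (q ξ)
    rw [abs_le] at h3
    have hξ1 : ‖q ξ‖ ^ 2 ≤ 1 := by
      have := hqn ξ
      rw [D.norm_xi] at this
      nlinarith [norm_nonneg (q ξ)]
    have h4 : ∑ l ∈ Finset.range n, c l * ‖e l (q ξ)‖ ^ 2 ≤
        ‖(T0 * q) ξ‖ ^ 2 + s * ‖q ξ‖ ^ 2 := by
      have h5 : ‖(T0 * q) ξ‖ ^ 2 = ∑ l ∈ Finset.range n, χ l * ‖e l (q ξ)‖ ^ 2 := by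
        have h6 : (T0 * q) ξ = T0 (q ξ) := rfl
        rw [h6, hpu.norm_sq]
        refine Finset.sum_congr rfl fun l hl => ?_
        have h7 : e l (T0 (q ξ)) = (χ l : ℂ) • e l (q ξ) :=
          congrArg (fun S : H →L[ℂ] H => S (q ξ)) (hpu.mul_op (fun l => (χ l : ℂ)) hl)
        rw [h7, norm_smul, mul_pow, Complex.norm_real]
        rcases hχ01 l with h | h <;> rw [h] <;> norm_num
      rw [h5, hpu.norm_sq (q ξ), Finset.mul_sum, ← Finset.sum_add_distrib]
      refine Finset.sum_le_sum fun l _ => ?_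
      rw [← add_mul]
      refine mul_le_mul_of_nonneg_right ?_ (by positivity)
      by_cases h : s ≤ c l
      · have h8 : χ l = 1 := by simp [hχ, h]
        rw [h8]
        linarith [(hc l).2]
      · have h8 : χ l = 0 := by simp [hχ, h]
        rw [h8]
        linarith
    have h9 : s * ‖q ξ‖ ^ 2 ≤ s := by nlinarith
    have h10 : μ * ‖q ξ‖ ^ 2 ≤ μ := by nlinarith
    linarith [h3.2]

end ModData

end Vale.Agent.P132
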